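import Vale.Agent.P028.AS.Defs
import Vale.Agent.P028.NF.Hits
import Vale.Agent.P028.Pair

/-! # P028 all shifts: the reduced pairs that can meet are sparse -/

open Finset
open Vale.P028NF (tauW)

namespace Vale.P028AS

/-- A reduced pair that can meet at scale `t` without being killed. -/
def Meet (γ : ℝ) (Λ : ℕ) (C0 : ℤ) (B0 : ℕ) (t : ℝ) (e : ℕ × ℕ) : Prop :=
  1 ≤ e.1 ∧ 1 ≤ e.2 ∧ e.1 ≠ e.2 ∧ (e.1 : ℝ) ≤ 2 * t * (2:ℝ) ^ (2 * Λ) ∧
    (e.2 : ℝ) ≤ 2 * t * (2:ℝ) ^ (2 * Λ) ∧ t * (2:ℝ) ^ Λ ≤ (e.2 : ℝ) ∧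
    ∃ n : ℤ, |(n:ℝ) - (((e.1:ℤ) - e.2 : ℤ) : ℝ) * γ| < 4 * t ∧
      n * (B0:ℤ) - ((e.1:ℤ) - e.2) * C0 ≠ 0

/-- the count along one line -/
theorem line_count {γ : ℝ} {Λ : ℕ} {C0 : ℤ} {B0 : ℕ} (hc : Cls γ Λ C0 B0) {X t : ℝ} (hX : 1 ≤ X)
    (ht : 0 < t) (htX : t * (2:ℝ) ^ Λ ≤ 2 * X) (T : Finset ℤ)
    (hT : ∀ m ∈ T, |(m:ℝ)| ≤ 2 * X ∧
      ∃ n : ℤ, |(n:ℝ) - (m:ℝ) * γ| < 4 * t ∧ n * (B0:ℤ) - m * C0 ≠ 0) :
    (T.card : ℝ) ≤ 80 * X * (t + 1 / Real.sqrt ((2:ℝ) ^ Λ)) := by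
  classical
  set s := Real.sqrt ((2:ℝ) ^ Λ) with hs
  have hs0 : 0 < s := Real.sqrt_pos.mpr (by positivity)
  set d := (B0:ℝ) * γ - C0 with hd
  have hB : (0:ℝ) < B0 := by exact_mod_cast hc.B_pos
  choose! n hn hk using fun m (hm : m ∈ T) => (hT m hm).2
  set k : ℤ → ℤ := fun m => n m * (B0:ℤ) - m * C0 with hkdef
  set K0 := 4 * t * B0 + 2 * X * |d| with hK0
  have hK00 : 0 ≤ K0 := by positivity
  have hkd : ∀ m ∈ T, |(k m : ℝ) - (m:ℝ) * d| < 4 * t * B0 := fun m hm => by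
    have e : (k m : ℝ) - (m:ℝ) * d = ((n m : ℝ) - (m:ℝ) * γ) * B0 := by
      simp only [hkdef, hd]; push_cast; ring
    rw [e, abs_mul, abs_of_pos hB]
    exact mul_lt_mul_of_pos_right (hn m hm) hB
  have himg : ((T.image k).card : ℝ) ≤ 2 * K0 := by
    have hsub : T.image k ⊆ (Icc (-⌊K0⌋) ⌊K0⌋).erase 0 := by
      intro v hv
      obtain ⟨m, hm, rfl⟩ := mem_image.mp hv
      have h1 := abs_sub_abs_le_abs_sub (k m : ℝ) ((m:ℝ) * d)
      have h2 : |(m:ℝ) * d| ≤ 2 * X * |d| := by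
        rw [abs_mul]; exact mul_le_mul_of_nonneg_right (hT m hm).1 (abs_nonneg _)
      have h3 : |(k m : ℝ)| ≤ K0 := by linarith [hkd m hm]
      have h4 : |k m| ≤ ⌊K0⌋ := Int.le_floor.mpr (by push_cast; exact h3)
      rw [mem_erase, mem_Icc]
      exact ⟨hk m hm, abs_le.mp h4⟩
    have hf : 0 ≤ ⌊K0⌋ := Int.floor_nonneg.mpr hK00
    have hc' : (((Icc (-⌊K0⌋) ⌊K0⌋).erase 0).card : ℤ) = 2 * ⌊K0⌋ := by
      rw [card_erase_of_mem (mem_Icc.mpr ⟨by omega, hf⟩), Int.card_Icc]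
      omega
    calc ((T.image k).card : ℝ) ≤ (((Icc (-⌊K0⌋) ⌊K0⌋).erase 0).card : ℝ) := by
          exact_mod_cast card_le_card hsub
      _ = 2 * (⌊K0⌋ : ℝ) := by exact_mod_cast hc'
      _ ≤ _ := by linarith [Int.floor_le K0]
  -- one fibre
  have hfib : ∀ v ∈ T.image k, ∀ (u l : ℝ), 0 ≤ l →
      (∀ m ∈ T, k m = v → u < (m:ℝ) ∧ (m:ℝ) < u + l) →
      ((T.filter (fun m => k m = v)).card : ℝ) ≤ l / B0 + 1 := by
    intro v _ u l hl hmem
    refine Vale.P028.card_spaced (u := u) hc.B_pos hl (fun m hm => ?_) (fun a ha b hb => ?_)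
    · obtain ⟨h1, h2⟩ := mem_filter.mp hm; exact hmem m h1 h2
    · obtain ⟨-, e1⟩ := mem_filter.mp ha
      obtain ⟨-, e2⟩ := mem_filter.mp hb
      simp only [hkdef] at e1 e2
      refine hc.cop.symm.dvd_of_dvd_mul_right ⟨n a - n b, ?_⟩
      linear_combination e2 - e1
  obtain ⟨E, hE0, hEB, hEle⟩ : ∃ E : ℝ, 0 ≤ E ∧ K0 * E ≤ 40 * t * X * B0 ∧
      ∀ v ∈ T.image k, ((T.filter (fun m => k m = v)).card : ℝ) ≤ E / B0 + 1 := by
    have htriv : ∀ v ∈ T.image k,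
        ((T.filter (fun m => k m = v)).card : ℝ) ≤ 6 * X / B0 + 1 := fun v hv =>
      hfib v hv (-(3 * X)) (6 * X) (by linarith) fun m hm _ => by
        have := abs_le.mp (hT m hm).1
        constructor <;> linarith
    by_cases hd0 : 4 * t * B0 < 3 * X * |d|
    · have hdp : 0 < |d| := by
        by_contra h
        have : |d| = 0 := le_antisymm (not_lt.mp h) (abs_nonneg _)
        rw [this, mul_zero] at hd0
        linarith [show 0 < 4 * t * B0 by positivity]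
      refine ⟨8 * t * B0 / |d|, by positivity, ?_, fun v hv => ?_⟩
      · rw [← mul_div_assoc, div_le_iff₀ hdp]
        have := mul_le_mul_of_nonneg_left hd0.le (show (0:ℝ) ≤ 8 * t * B0 by positivity)
        rw [hK0]; nlinarith
      · refine hfib v hv ((v:ℝ) / d - 4 * t * B0 / |d|) _ (by positivity) fun m hm hmv => ?_
        have hdne : d ≠ 0 := abs_pos.mp hdp
        have h := hkd m hm
        rw [hmv] at h
        have h' : |(v:ℝ) / d - m| < 4 * t * B0 / |d| := by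
          rw [show (v:ℝ) / d - m = ((v:ℝ) - m * d) / d by field_simp, abs_div]
          gcongr
        rw [abs_lt] at h'
        constructor
        · linarith
        · have : 8 * t * B0 / |d| = 2 * (4 * t * B0 / |d|) := by ring
          linarith
    · refine ⟨6 * X, by linarith, ?_, htriv⟩
      rw [hK0]; nlinarith
  have hd1 : |d| ≤ 1 / s := by rw [le_div_iff₀ hs0]; exact hc.eps_le
  have htB : t * B0 ≤ 4 * X / s := by
    rw [le_div_iff₀ hs0]
    calc t * B0 * s ≤ t * (2 * s) * s :=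
          mul_le_mul_of_nonneg_right (mul_le_mul_of_nonneg_left hc.B_le ht.le) hs0.le
      _ = 2 * (t * (s * s)) := by ring
      _ ≤ 2 * (2 * X) := by
          rw [hs, Real.mul_self_sqrt (by positivity)]; linarith
      _ = 4 * X := by ring
  have hKE : K0 * (E / B0) ≤ 40 * t * X := by
    rw [← mul_div_assoc, div_le_iff₀ hB]; linarith
  calc (T.card : ℝ) = ∑ v ∈ T.image k, ((T.filter (fun m => k m = v)).card : ℝ) := by
        rw [← Nat.cast_sum, ← card_eq_sum_card_image]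
    _ ≤ ∑ v ∈ T.image k, (E / B0 + 1) := sum_le_sum hEle
    _ = ((T.image k).card : ℝ) * (E / B0 + 1) := by rw [sum_const, nsmul_eq_mul]
    _ ≤ 2 * K0 * (E / B0 + 1) := mul_le_mul_of_nonneg_right himg (by positivity)
    _ ≤ 80 * t * X + 2 * (4 * (t * B0) + 2 * X * |d|) := by rw [hK0] at hKE ⊢; nlinarith
    _ ≤ 80 * t * X + 2 * (4 * (4 * X / s) + 2 * X * (1 / s)) := by
        have := mul_le_mul_of_nonneg_left hd1 (show (0:ℝ) ≤ 2 * X by linarith)
        linarith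
    _ = 80 * X * t + 36 * (X / s) := by ring
    _ ≤ _ := by
        have : 0 ≤ X / s := by positivity
        rw [mul_add, show 80 * X * (1 / s) = 80 * (X / s) by ring]
        linarith

/-- one side: the reciprocal sum over the larger coordinate -/
theorem side_sum {γ : ℝ} {Λ : ℕ} {C0 : ℤ} {B0 : ℕ} (hc : Cls γ Λ C0 B0) {t : ℝ} (ht : 0 < t)
    (ht1 : t < 1) (s : Finset ℕ) (f : ℕ → ℤ) (hinj : Set.InjOn f s)
    (hs : ∀ b ∈ s, 1 ≤ b ∧ (b:ℝ) ≤ 2 * t * (2:ℝ) ^ (2 * Λ) ∧ t * (2:ℝ) ^ Λ ≤ (b:ℝ) ∧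
      |(f b : ℝ)| ≤ b ∧ ∃ n : ℤ, |(n:ℝ) - (f b : ℝ) * γ| < 4 * t ∧ n * (B0:ℤ) - f b * C0 ≠ 0) :
    ∑ b ∈ s, (1:ℝ) / b ≤ 960 * Λ * t ^ (1/4 : ℝ) := by
  classical
  rcases s.eq_empty_or_nonempty with rfl | ⟨b0, hb0⟩
  · simp; positivity
  have hΛ : (1:ℝ) ≤ Λ := by exact_mod_cast hc.one_le
  have h4 : 1 ≤ 2 * t * (2:ℝ) ^ (2 * Λ) :=
    le_trans (by exact_mod_cast (hs b0 hb0).1) (hs b0 hb0).2.1
  set r := t ^ (1/4 : ℝ) with hr
  have hr0 : 0 < r := Real.rpow_pos_of_pos ht _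
  have hr4 : r ^ 4 = t := by
    rw [hr, ← Real.rpow_natCast, ← Real.rpow_mul ht.le]; norm_num
  have htr : t ≤ r := by
    conv_lhs => rw [← Real.rpow_one t]
    exact Real.rpow_le_rpow_of_exponent_ge ht ht1.le (by norm_num)
  have hsr : 1 / Real.sqrt ((2:ℝ) ^ Λ) ≤ 2 * r := by
    have hq : 0 < Real.sqrt ((2:ℝ) ^ Λ) := Real.sqrt_pos.mpr (by positivity)
    refine le_of_pow_le_pow_left₀ (show 4 ≠ 0 by norm_num) (by positivity) ?_
    have e : Real.sqrt ((2:ℝ) ^ Λ) ^ 4 = (2:ℝ) ^ (2 * Λ) := by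
      rw [show (4:ℕ) = 2 * 2 by rfl, pow_mul, Real.sq_sqrt (by positivity), ← pow_mul]
      ring_nf
    rw [div_pow, one_pow, e, mul_pow, hr4, div_le_iff₀ (by positivity)]
    nlinarith [show (0:ℝ) ≤ t * (2:ℝ) ^ (2 * Λ) by positivity]
  have hmap : ∀ b ∈ s, Nat.log 2 b ∈ range (4 * Λ) := by
    intro b hb
    rw [mem_range]
    have h1 := hs b hb
    have h2 : (2:ℝ) ^ Nat.log 2 b ≤ (b:ℝ) := by
      exact_mod_cast Nat.pow_log_le_self 2 (show b ≠ 0 by omega)
    have h3 : (2:ℝ) ^ Nat.log 2 b < (2:ℝ) ^ (2 * Λ + 1) := by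
      rw [pow_succ]
      nlinarith [h1.2.1, show (0:ℝ) < (2:ℝ) ^ (2 * Λ) by positivity]
    have := (pow_lt_pow_iff_right₀ one_lt_two).mp h3
    have := hc.one_le
    omega
  rw [← sum_fiberwise_of_maps_to hmap]
  refine (sum_le_sum (g := fun _ => 240 * r) fun j _ => ?_).trans (le_of_eq ?_)
  · set sj := s.filter (fun b => Nat.log 2 b = j) with hsj
    have hj : ∀ b ∈ sj, (2:ℝ) ^ j ≤ (b:ℝ) ∧ (b:ℝ) ≤ 2 * (2:ℝ) ^ j := by
      intro b hb
      obtain ⟨hbs, hbj⟩ := mem_filter.mp hb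
      rw [← hbj]
      have h0 : b ≠ 0 := by have := (hs b hbs).1; omega
      refine ⟨by exact_mod_cast Nat.pow_log_le_self 2 h0, ?_⟩
      rw [← pow_succ']
      exact_mod_cast (Nat.lt_pow_succ_log_self one_lt_two b).le
    rcases sj.eq_empty_or_nonempty with h | ⟨b1, hb1⟩
    · rw [h]; simp; positivity
    have hX : (1:ℝ) ≤ (2:ℝ) ^ j := one_le_pow₀ one_le_two
    have hcnt := line_count hc hX ht
      ((hs b1 (mem_filter.mp hb1).1).2.2.1.trans (hj b1 hb1).2) (sj.image f) (fun m hm => by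
        obtain ⟨b, hb, rfl⟩ := mem_image.mp hm
        obtain ⟨hbs, -⟩ := mem_filter.mp hb
        exact ⟨(hs b hbs).2.2.2.1.trans (hj b hb).2, (hs b hbs).2.2.2.2⟩)
    rw [card_image_of_injOn (hinj.mono (by intro x hx; exact (mem_filter.mp hx).1))] at hcnt
    calc ∑ b ∈ sj, (1:ℝ) / b ≤ ∑ _b ∈ sj, 1 / (2:ℝ) ^ j :=
          sum_le_sum fun b hb => one_div_le_one_div_of_le (by positivity) (hj b hb).1
      _ = (sj.card : ℝ) * (1 / (2:ℝ) ^ j) := by rw [sum_const, nsmul_eq_mul]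
      _ ≤ 80 * (2:ℝ) ^ j * (3 * r) * (1 / (2:ℝ) ^ j) := by
          refine mul_le_mul_of_nonneg_right (hcnt.trans ?_) (by positivity)
          exact mul_le_mul_of_nonneg_left (by linarith) (by positivity)
      _ = 240 * r := by field_simp; norm_num
  · rw [sum_const, card_range, nsmul_eq_mul]; push_cast; ring

/-- the weighted count of the pairs that can meet -/
theorem hits : ∃ K : ℝ, 1 ≤ K ∧ ∀ (γ : ℝ) (Λ : ℕ) (C0 : ℤ) (B0 : ℕ), Cls γ Λ C0 B0 →
    ∀ t : ℝ, 0 < t → t ≤ 2 ^ 64 * (Λ:ℝ) → ∀ R : Finset (ℕ × ℕ),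
      (∀ e ∈ R, Meet γ Λ C0 B0 t e) →
      ∑ e ∈ R, tauW e ≤ K * (Λ:ℝ) ^ 5 * min 1 t ^ (1/8 : ℝ) := by
  refine ⟨71 ^ 5 * 2000, by norm_num, fun γ Λ C0 B0 hc t ht htΛ R hR => ?_⟩
  classical
  have hΛ : (1:ℝ) ≤ Λ := by exact_mod_cast hc.one_le
  set L := 70 * (Λ:ℝ) with hL
  have hL0 : 0 ≤ L := by positivity
  have hbox : ∀ e ∈ R, (e.1:ℝ) ≤ Real.exp L ∧ (e.2:ℝ) ≤ Real.exp L := by
    have key : 2 * t * (2:ℝ) ^ (2 * Λ) ≤ Real.exp L := by
      have h1 : (Λ:ℝ) ≤ (2:ℝ) ^ Λ := by exact_mod_cast Nat.lt_two_pow_self.le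
      calc 2 * t * (2:ℝ) ^ (2 * Λ) ≤ 2 * (2 ^ 64 * (2:ℝ) ^ Λ) * (2:ℝ) ^ (2 * Λ) := by
            gcongr; exact htΛ.trans (by linarith)
        _ = (2:ℝ) ^ (65 + 3 * Λ) := by ring
        _ ≤ Real.exp 1 ^ (65 + 3 * Λ) :=
            pow_le_pow_left₀ (by norm_num) (by linarith [Real.exp_one_gt_d9]) _
        _ ≤ _ := by
            rw [Real.exp_one_pow]; refine Real.exp_le_exp.mpr ?_; push_cast; rw [hL]; linarith
    exact fun e he => ⟨(hR e he).2.2.2.1.trans key, (hR e he).2.2.2.2.1.trans key⟩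
  set N := ⌊Real.exp L⌋₊ with hN
  set g : ℕ → ℝ := fun n => (n.divisors.card : ℝ) ^ 2 / n with hg
  have hinv : ∑ k ∈ Icc 1 N, (1:ℝ) / k ≤ 1 + L := by
    refine (Vale.P028NF.sum_inv_le _).trans ?_
    have h1 : (1:ℝ) ≤ N := by
      exact_mod_cast Nat.le_floor (by simpa using Real.one_le_exp hL0)
    have h2 := Real.log_le_log (by linarith) (Nat.floor_le (Real.exp_pos L).le)
    rw [Real.log_exp] at h2
    linarith
  have hmem : ∀ e ∈ R, e ∈ Icc 1 N ×ˢ Icc 1 N := fun e he => mem_product.mpr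
    ⟨mem_Icc.mpr ⟨(hR e he).1, Nat.le_floor (hbox e he).1⟩,
      mem_Icc.mpr ⟨(hR e he).2.1, Nat.le_floor (hbox e he).2⟩⟩
  have hA : ∑ e ∈ R, (1:ℝ) / ((e.1:ℝ) * e.2) ≤ 2000 * (1 + L) ^ 2 * min 1 t ^ (1/4 : ℝ) := by
    rcases le_or_gt 1 t with h | h
    · rw [min_eq_left h, Real.one_rpow, mul_one]
      calc ∑ e ∈ R, (1:ℝ) / ((e.1:ℝ) * e.2)
          ≤ ∑ e ∈ Icc 1 N ×ˢ Icc 1 N, (1:ℝ) / ((e.1:ℝ) * e.2) :=
            sum_le_sum_of_subset_of_nonneg hmem fun e _ _ => by positivity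
        _ = (∑ k ∈ Icc 1 N, (1:ℝ) / k) ^ 2 := by
            rw [sq, sum_mul_sum, sum_product]
            exact sum_congr rfl fun a _ => sum_congr rfl fun b _ => (one_div_mul_one_div _ _).symm
        _ ≤ (1 + L) ^ 2 := pow_le_pow_left₀ (sum_nonneg fun _ _ => by positivity) hinv 2
        _ ≤ _ := by linarith [sq_nonneg (1 + L)]
    · rw [min_eq_right h.le]
      set r := t ^ (1/4 : ℝ)
      have hr0 : 0 ≤ r := Real.rpow_nonneg ht.le _
      -- `σ` selects the larger coordinate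
      have side : ∀ (p o : ℕ × ℕ → ℕ) (T : Finset (ℕ × ℕ)),
          (∀ e ∈ T, ∀ e' ∈ T, p e = p e' → o e = o e' → e = e') →
          T ⊆ R → (∀ e ∈ T, p e ∈ Icc 1 N ∧ (e.1:ℝ) * e.2 = (p e : ℝ) * o e ∧ 1 ≤ o e ∧
            (o e : ℝ) ≤ 2 * t * (2:ℝ) ^ (2 * Λ) ∧ t * (2:ℝ) ^ Λ ≤ (o e : ℝ) ∧ p e ≤ o e ∧
            ((e = (p e, o e)) ∨ (e = (o e, p e)))) →
          (∀ e ∈ T, ∀ e' ∈ T, p e = p e' → (e.1 < e.2 ↔ e'.1 < e'.2)) →
          ∑ e ∈ T, (1:ℝ) / ((e.1:ℝ) * e.2) ≤ (1 + L) * (960 * Λ * r) := by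
        intro p o T hpo hTR hT hsign
        rw [← sum_fiberwise_of_maps_to (g := p) (t := Icc 1 N) fun e he => (hT e he).1]
        calc ∑ a ∈ Icc 1 N, ∑ e ∈ T.filter (fun e => p e = a), (1:ℝ) / ((e.1:ℝ) * e.2)
            ≤ ∑ a ∈ Icc 1 N, (1:ℝ) / a * (960 * Λ * r) := by
              refine sum_le_sum fun a _ => ?_
              set Ta := T.filter (fun e => p e = a) with hTa
              have hoinj : Set.InjOn o (Ta : Set (ℕ × ℕ)) := fun e he e' he' h =>
                hpo e (mem_filter.mp he).1 e' (mem_filter.mp he').1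
                  ((mem_filter.mp he).2.trans (mem_filter.mp he').2.symm) h
              calc ∑ e ∈ Ta, (1:ℝ) / ((e.1:ℝ) * e.2) = ∑ e ∈ Ta, (1:ℝ) / a * (1 / (o e : ℝ)) := by
                    refine sum_congr rfl fun e he => ?_
                    obtain ⟨he, hpe⟩ := mem_filter.mp he
                    rw [(hT e he).2.1, hpe, one_div_mul_one_div]
                _ = (1:ℝ) / a * ∑ b ∈ Ta.image o, (1:ℝ) / b := by rw [sum_image hoinj, mul_sum]
                _ ≤ _ := by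
                    refine mul_le_mul_of_nonneg_left ?_ (by positivity)
                    rcases Ta.eq_empty_or_nonempty with h0 | ⟨e0, he0⟩
                    · rw [h0]; simp; positivity
                    obtain ⟨he0T, hpe0⟩ := mem_filter.mp he0
                    refine side_sum hc ht h _
                      (if e0.1 < e0.2 then fun b => (a:ℤ) - b else fun b => (b:ℤ) - a) ?_ ?_
                    · intro b _ b' _ hbb
                      split_ifs at hbb <;> simpa using hbb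
                    · intro b hb
                      obtain ⟨e, he, rfl⟩ := mem_image.mp hb
                      obtain ⟨he, hpe⟩ := mem_filter.mp he
                      obtain ⟨-, -, h1, h2, h3, h4, h5⟩ := hT e he
                      obtain ⟨-, -, hne, -, -, -, n, hn, hk⟩ := hR e (hTR he)
                      have hiff := hsign e he e0 he0T (hpe.trans hpe0.symm)
                      have hf : (if e0.1 < e0.2 then fun b : ℕ => (a:ℤ) - b
                          else fun b : ℕ => (b:ℤ) - a) (o e) = (e.1:ℤ) - e.2 := by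
                        rcases h5 with h5 | h5 <;> have h51 := congrArg Prod.fst h5 <;>
                          have h52 := congrArg Prod.snd h5 <;> simp only at h51 h52
                        · rw [if_pos (hiff.mp (by omega)), ← hpe, ← h51, ← h52]
                        · rw [if_neg (fun h' => absurd (hiff.mpr h') (by omega)), ← hpe, ← h51,
                            ← h52]
                      rw [hf]
                      refine ⟨h1, h2, h3, ?_, n, hn, hk⟩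
                      have hab : |(e.1:ℤ) - e.2| ≤ (o e : ℤ) := by
                        rw [abs_le]
                        rcases h5 with h5 | h5 <;> have h51 := congrArg Prod.fst h5 <;>
                          have h52 := congrArg Prod.snd h5 <;> simp only at h51 h52 <;> omega
                      exact_mod_cast hab
          _ = (∑ a ∈ Icc 1 N, (1:ℝ) / a) * (960 * Λ * r) := (sum_mul _ _ _).symm
          _ ≤ _ := mul_le_mul_of_nonneg_right hinv (by positivity)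
      have s1 := side Prod.fst Prod.snd (R.filter (fun e => e.1 < e.2))
        (fun e _ e' _ h1 h2 => Prod.ext h1 h2) (filter_subset _ _) (fun e he => by
          obtain ⟨he, hlt⟩ := mem_filter.mp he
          obtain ⟨-, b2, -, -, b5, b6, -⟩ := hR e he
          exact ⟨(mem_product.mp (hmem e he)).1, rfl, b2, b5, b6, hlt.le, Or.inl rfl⟩)
        (fun e he e' he' _ => iff_of_true (mem_filter.mp he).2 (mem_filter.mp he').2)
      have s2 := side Prod.snd Prod.fst (R.filter (fun e => ¬ e.1 < e.2))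
        (fun e _ e' _ h1 h2 => Prod.ext h2 h1) (filter_subset _ _) (fun e he => by
          obtain ⟨he, hlt⟩ := mem_filter.mp he
          obtain ⟨b1, -, -, b4, -, b6, -⟩ := hR e he
          exact ⟨(mem_product.mp (hmem e he)).2, mul_comm _ _, b1, b4,
            b6.trans (by exact_mod_cast not_lt.mp hlt), not_lt.mp hlt, Or.inr rfl⟩)
        (fun e he e' he' _ => iff_of_false (mem_filter.mp he).2 (mem_filter.mp he').2)
      rw [← sum_filter_add_sum_filter_not R (fun e => e.1 < e.2)]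
      refine (add_le_add s1 s2).trans ?_
      have e1 : 960 * (Λ:ℝ) ≤ 1000 * (1 + L) := by rw [hL]; linarith
      have e2 := mul_le_mul_of_nonneg_left e1 (mul_nonneg (show 0 ≤ 1 + L by linarith) hr0)
      linarith
  -- Cauchy
  have hB : ∑ e ∈ R, g e.1 * g e.2 ≤ ((1 + L) ^ 4) ^ 2 := by
    calc ∑ e ∈ R, g e.1 * g e.2 ≤ ∑ e ∈ Icc 1 N ×ˢ Icc 1 N, g e.1 * g e.2 :=
          sum_le_sum_of_subset_of_nonneg hmem fun e _ _ => by simp only [hg]; positivity
      _ = (∑ n ∈ Icc 1 N, g n) ^ 2 := by rw [sq, sum_mul_sum, sum_product]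
      _ ≤ _ := pow_le_pow_left₀ (sum_nonneg fun n _ => by positivity)
          (Vale.P028NF.tau_sq_le hL0) 2
  have hcs : (∑ e ∈ R, tauW e) ^ 2
      ≤ (∑ e ∈ R, (1:ℝ) / ((e.1:ℝ) * e.2)) * ∑ e ∈ R, g e.1 * g e.2 := by
    refine sum_sq_le_sum_mul_sum_of_sq_le_mul R (fun e _ => by positivity)
      (fun e _ => by simp only [hg]; positivity) (fun e _ => le_of_eq ?_)
    simp only [tauW, hg]; ring
  set u := min 1 t ^ (1/8 : ℝ) with hu
  have hu2 : min 1 t ^ (1/4 : ℝ) = u ^ 2 := by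
    rw [hu, ← Real.rpow_natCast _ 2, ← Real.rpow_mul (le_min zero_le_one ht.le)]; norm_num
  rw [hu2] at hA
  have hu0 : 0 ≤ u := Real.rpow_nonneg (le_min zero_le_one ht.le) _
  have hfin : (∑ e ∈ R, tauW e) ^ 2 ≤ (2000 * (1 + L) ^ 5 * u) ^ 2 := by
    refine (hcs.trans (mul_le_mul hA hB
      (sum_nonneg fun e _ => by simp only [hg]; positivity) (by positivity))).trans ?_
    have : 0 ≤ (1 + L) ^ 10 * u ^ 2 := by positivity
    nlinarith
  refine (le_of_pow_le_pow_left₀ two_ne_zero (by positivity) hfin).trans ?_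
  have : (1 + L) ^ 5 ≤ 71 ^ 5 * (Λ:ℝ) ^ 5 := by
    rw [← mul_pow]; exact pow_le_pow_left₀ (by positivity) (by rw [hL]; linarith) 5
  nlinarith

end Vale.P028AS
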