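import Vale.Agent.P028.AS.Pairs
import Vale.Agent.P028.AS.Hits
import Vale.Agent.P028.NF.Sum

/-! # P028 all shifts: the second moment inside one class -/

open Finset
open Vale.P028EV (DD ov lam xx yy gcd_mul_xx gcd_mul_yy)
open Vale.P028NF (tauW flg flg_spec tauW_nonneg geom_int kernel_form gcdIneq two_rpow_pow)

namespace Vale.P028AS

theorem red_eq (q r : ℕ) : Vale.P028NF.red (q, r) = (xx q r, yy q r) := rfl

theorem DD_eq_lcm (ψ : ℕ → ℝ) {q r : ℕ} (hq : 0 < q) :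
    DD ψ q r = (Nat.lcm q r : ℝ) * (ψ q / q) := by
  have hg : (Nat.gcd q r : ℝ) ≠ 0 := by exact_mod_cast (Nat.gcd_pos_of_pos_left r hq).ne'
  have hl : (Nat.gcd q r : ℝ) * (Nat.lcm q r : ℝ) = (q:ℝ) * r := by
    exact_mod_cast Nat.gcd_mul_lcm q r
  have h2 : (Nat.gcd q r : ℝ) * yy q r = r := by exact_mod_cast gcd_mul_yy q r
  have k : (yy q r : ℝ) * q = (Nat.lcm q r : ℝ) :=
    mul_left_cancel₀ hg (by rw [hl, ← mul_assoc, h2]; ring)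
  have hqR : (0:ℝ) < q := by exact_mod_cast hq
  rw [← k, DD]; field_simp

open scoped Classical in
/-- one group of pairs: the two scales and the size of `D` are fixed -/
theorem group_le {ε η β b θ κ c W KH CG : ℝ} (hη : 0 < η) (hθ : θ = 1/2 - η) (hθ0 : 0 < θ)
    (hb : b = β * θ) (hb0 : 0 < b) (hκ : κ = b / 8 - 2 * η) (hκ1 : κ ≤ 1)
    (hW : 1 ≤ W) (hCG0 : 0 ≤ CG) (hKH : 1 ≤ KH)
    (hCG : ∀ (V W : Finset ℕ) (E : Finset (ℕ × ℕ)) (μ ν : ℕ → ℝ) (ρ σ Λ : ℝ) (R : Finset (ℕ × ℕ)),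
      0 ≤ ρ → 0 ≤ σ → 0 ≤ Λ → E ⊆ V ×ˢ W →
      (∀ v ∈ V, 0 ≤ μ v ∧ μ v ≤ ρ * (Nat.totient v : ℝ)) →
      (∀ v ∈ W, 0 ≤ ν v ∧ ν v ≤ σ * (Nat.totient v : ℝ)) →
      (∀ e ∈ E, 0 < e.1 ∧ 0 < e.2 ∧ Λ ≤ (Nat.lcm e.1 e.2 : ℝ) ∧
        (Nat.lcm e.1 e.2 : ℝ) < 4 * Λ ∧ Vale.P028NF.red e ∈ R) →
      ∑ e ∈ E, μ e.1 * ν e.2 ≤ CG * (ρ * σ * Λ ^ 2) ^ (1/2 - η) *
        (∑ x ∈ R, tauW x) ^ (β * (1/2 - η)) *
        ((∑ v ∈ V, μ v) * (∑ v ∈ W, ν v)) ^ (1/2 + η))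
    {γ : ℝ} {ψ : ℕ → ℝ} {C : ℕ → ℤ} {B : ℕ → ℕ} {Λ : ℕ} {C0 : ℤ} {B0 : ℕ} {S : Finset ℕ}
    {thr f : ℝ} (hc : Cls γ Λ C0 B0) (hhit : ∀ t : ℝ, 0 < t → t ≤ thr → ∀ R : Finset (ℕ × ℕ),
      (∀ e ∈ R, Meet γ Λ C0 B0 t e) →
      ∑ e ∈ R, tauW e ≤ KH * (Λ:ℝ) ^ 5 * min 1 t ^ (1/8 : ℝ))
    (hS : ∀ q ∈ S, InCls ψ C B Λ C0 B0 q) (hψ : ∀ q ∈ S, 0 < ψ q)
    (hf : f = (Λ:ℝ) ^ (-ε)) (hthr : thr = W * (Λ:ℝ) ^ c) (hthr1 : 1 ≤ thr)
    (E : Finset (ℕ × ℕ)) (hEm : ∀ e ∈ E, e.1 ∈ S ∧ e.2 ∈ S ∧ e.2 ≠ e.1 ∧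
      ψ e.2 / e.2 ≤ ψ e.1 / e.1 ∧ DD ψ e.1 e.2 < thr ∧ ov γ ψ C B e.1 e.2 ≠ 0)
    (μ : ℕ → ℝ) (hμ : μ = fun q => f * lam ψ q) (key : ℕ → ℤ × ℕ)
    (hkey : key = fun q => (flg (ψ q / q), 0)) (A A' : ℤ × ℕ) (n : ℤ) :
    ∑ e ∈ E.filter (fun e => ((key e.1, key e.2), flg (DD ψ e.1 e.2)) = ((A, A'), n)),
      μ e.1 * μ e.2 / DD ψ e.1 e.2 ≤
    W * CG * KH ^ b * (Λ:ℝ) ^ (-2 * ε * θ + 5 * b + c) * ((2:ℝ) ^ (-κ)) ^ n.natAbs *
      ((2:ℝ) ^ (-θ * |(A.1:ℝ) - A'.1| - 1 * ((A.2:ℝ) + A'.2)) *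
        ((∑ q ∈ S.filter (fun q => key q = A), μ q) *
          ∑ q ∈ S.filter (fun q => key q = A'), μ q) ^ (1/2 + η)) := by
  have hΛ : (1:ℝ) ≤ Λ := by exact_mod_cast hc.one_le
  have hΛ0 : (0:ℝ) < Λ := by linarith
  have hW0 : 0 ≤ W := by linarith
  have hKH0 : 0 ≤ KH := by linarith
  have hf0 : 0 < f := by rw [hf]; exact Real.rpow_pos_of_pos hΛ0 _
  have hμ0 : ∀ q ∈ S, 0 ≤ μ q := fun q hq => by
    have := hψ q hq; simp only [hμ, lam]; positivity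
  set m : ℤ × ℕ → ℝ := fun A => ∑ q ∈ S.filter (fun q => key q = A), μ q with hm
  have hm0 : ∀ A, 0 ≤ m A := fun A => sum_nonneg fun q hq => hμ0 q (mem_filter.mp hq).1
  show _ ≤ _ * (_ * (m A * m A') ^ (1/2 + η))
  obtain ⟨rr, hrr⟩ : ∃ rr, rr = (2:ℝ) ^ (-κ) := ⟨_, rfl⟩
  rw [← hrr]
  have hr0 : 0 ≤ rr := by rw [hrr]; exact Real.rpow_nonneg two_pos.le _
  set Eg := E.filter (fun e => ((key e.1, key e.2), flg (DD ψ e.1 e.2)) = ((A, A'), n)) with hEg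
  rcases Eg.eq_empty_or_nonempty with h | ⟨e0, he0⟩
  · rw [h, sum_empty]
    exact mul_nonneg (by positivity)
      (mul_nonneg (Real.rpow_nonneg two_pos.le _)
        (Real.rpow_nonneg (mul_nonneg (hm0 A) (hm0 A')) _))
  have hfacts : ∀ e ∈ Eg, e ∈ E ∧ key e.1 = A ∧ key e.2 = A' ∧ flg (DD ψ e.1 e.2) = n := by
    intro e he
    obtain ⟨h1, h2⟩ := mem_filter.mp he
    simp only [Prod.mk.injEq] at h2
    exact ⟨h1, h2.1.1, h2.1.2, h2.2⟩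
  have hA2 : A.2 = 0 ∧ A'.2 = 0 := by
    obtain ⟨-, h1, h2, -⟩ := hfacts e0 he0
    exact ⟨by rw [← h1, hkey], by rw [← h2, hkey]⟩
  set t := (2:ℝ) ^ (n:ℝ) with ht
  have ht0 : 0 < t := Real.rpow_pos_of_pos two_pos _
  have hDt : ∀ e ∈ Eg, 0 < DD ψ e.1 e.2 ∧ t ≤ DD ψ e.1 e.2 ∧ DD ψ e.1 e.2 < 2 * t := by
    intro e he
    obtain ⟨he', -, -, hn⟩ := hfacts e he
    obtain ⟨h1, h2, -, h4, -⟩ := hEm e he'
    have hD := (pair_facts (hS _ h1) (hS _ h2) h4).2.2.1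
    obtain ⟨a1, a2⟩ := flg_spec hD
    rw [hn] at a1 a2
    refine ⟨hD, a1, ?_⟩
    rwa [Real.rpow_add two_pos, Real.rpow_one, mul_comm] at a2
  have htthr : t < thr := (hDt e0 he0).2.1.trans_lt (hEm e0 (hfacts e0 he0).1).2.2.2.2.1
  -- the classes
  have hAA : (A'.1:ℝ) ≤ A.1 := by
    obtain ⟨he', h1, h2, -⟩ := hfacts e0 he0
    obtain ⟨hq, hr, -, h4, -⟩ := hEm e0 he'
    rw [← h1, ← h2]
    simp only [hkey, flg]
    exact_mod_cast Int.floor_le_floor (Real.logb_le_logb_of_le one_lt_two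
      (div_pos (hψ _ hr) (by exact_mod_cast (hS _ hr).pos)) h4)
  set ρ := f * (2:ℝ) ^ ((A.1:ℝ) + 1) with hρ
  set σ := f * (2:ℝ) ^ ((A'.1:ℝ) + 1) with hσ
  set ℓ := (2:ℝ) ^ ((n:ℝ) - A.1 - 1) with hℓ
  have hside : ∀ (A : ℤ × ℕ) (v : ℕ), v ∈ S.filter (fun q => key q = A) →
      0 ≤ μ v ∧ μ v ≤ f * (2:ℝ) ^ ((A.1:ℝ) + 1) * (Nat.totient v : ℝ) := by
    intro A v hv
    obtain ⟨hvS, hk⟩ := mem_filter.mp hv
    have hvR : (0:ℝ) < v := by exact_mod_cast (hS v hvS).pos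
    refine ⟨hμ0 v hvS, ?_⟩
    have h1 := (flg_spec (div_pos (hψ v hvS) hvR)).2
    rw [show flg (ψ v / v) = A.1 from (by rw [← hk, hkey])] at h1
    calc μ v = f * (ψ v / v) * (Nat.totient v : ℝ) := by simp only [hμ, lam]; ring
      _ ≤ _ := mul_le_mul_of_nonneg_right (mul_le_mul_of_nonneg_left h1.le hf0.le)
          (Nat.cast_nonneg _)
  have hsub : Eg ⊆ S.filter (fun q => key q = A) ×ˢ S.filter (fun q => key q = A') := by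
    intro e he
    obtain ⟨he', h1, h2, -⟩ := hfacts e he
    exact mem_product.mpr ⟨mem_filter.mpr ⟨(hEm e he').1, h1⟩,
      mem_filter.mpr ⟨(hEm e he').2.1, h2⟩⟩
  have hedge : ∀ e ∈ Eg, 0 < e.1 ∧ 0 < e.2 ∧ ℓ ≤ (Nat.lcm e.1 e.2 : ℝ) ∧
      (Nat.lcm e.1 e.2 : ℝ) < 4 * ℓ ∧
      Vale.P028NF.red e ∈ Eg.image Vale.P028NF.red := by
    intro e he
    obtain ⟨he', h1, -, -⟩ := hfacts e he
    obtain ⟨hq, hr, -⟩ := hEm e he'
    have q0 := (hS _ hq).pos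
    have hqR : (0:ℝ) < e.1 := by exact_mod_cast q0
    obtain ⟨-, a1, a2⟩ := hDt e he
    rw [DD_eq_lcm ψ q0] at a1 a2
    obtain ⟨b1, b2⟩ := flg_spec (div_pos (hψ _ hq) hqR)
    rw [show flg (ψ e.1 / e.1) = A.1 from (by rw [← h1, hkey])] at b1 b2
    refine ⟨q0, (hS _ hr).pos, ?_, ?_, mem_image_of_mem _ he⟩
    · refine le_of_mul_le_mul_right ?_ (Real.rpow_pos_of_pos two_pos ((A.1:ℝ) + 1))
      calc ℓ * (2:ℝ) ^ ((A.1:ℝ) + 1) = t := by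
            rw [hℓ, ht, ← Real.rpow_add two_pos]; congr 1; ring
        _ ≤ _ := a1.trans (mul_le_mul_of_nonneg_left b2.le (Nat.cast_nonneg _))
    · refine lt_of_mul_lt_mul_right ?_ (Real.rpow_nonneg two_pos.le (A.1:ℝ))
      calc (Nat.lcm e.1 e.2 : ℝ) * (2:ℝ) ^ (A.1:ℝ)
          ≤ (Nat.lcm e.1 e.2 : ℝ) * (ψ e.1 / e.1) :=
            mul_le_mul_of_nonneg_left b1 (Nat.cast_nonneg _)
        _ < 2 * t := a2
        _ = _ := by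
            rw [hℓ, show (4:ℝ) = (2:ℝ) ^ (2:ℝ) by norm_num, ← Real.rpow_add two_pos,
              ← Real.rpow_add two_pos, ht]
            nth_rw 1 [← Real.rpow_one (2:ℝ)]
            rw [← Real.rpow_add two_pos]
            congr 1; ring
  have hH : ∑ x ∈ Eg.image Vale.P028NF.red, tauW x ≤
      KH * (Λ:ℝ) ^ 5 * (2:ℝ) ^ (min 0 (n:ℝ) / 8) := by
    refine (hhit t ht0 htthr.le _ fun x hx => ?_).trans (le_of_eq ?_)
    · obtain ⟨e, he, rfl⟩ := mem_image.mp hx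
      obtain ⟨he', -⟩ := hfacts e he
      obtain ⟨hq, hr, h3, h4, -, h6⟩ := hEm e he'
      rw [red_eq e.1 e.2]
      exact ov_meet hc (hS _ hq) (hS _ hr) h3.symm h4 h6 (hDt e he).2.1 (hDt e he).2.2
    · congr 1
      have : min 1 t = (2:ℝ) ^ (min 0 (n:ℝ)) := by
        rcases le_total (0:ℝ) n with h | h
        · rw [min_eq_left h, Real.rpow_zero, min_eq_left (Real.one_le_rpow one_le_two h)]
        · rw [min_eq_right h, min_eq_right (Real.rpow_le_one_of_one_le_of_nonpos one_le_two h)]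
      rw [this, ← Real.rpow_mul two_pos.le]
      congr 1; ring
  have hHnn : 0 ≤ ∑ x ∈ Eg.image Vale.P028NF.red, tauW x :=
    sum_nonneg fun x _ => tauW_nonneg x
  have hmm : 0 ≤ (m A * m A') ^ (1/2 + η) :=
    Real.rpow_nonneg (mul_nonneg (hm0 A) (hm0 A')) _
  have hG := hCG _ _ Eg μ μ ρ σ ℓ _ (by positivity) (by positivity) (by positivity) hsub
    (hside A) (hside A') hedge
  rw [← hθ, ← hb] at hG
  have hprod : ρ * σ * ℓ ^ 2 = f ^ 2 * (2:ℝ) ^ (2 * (n:ℝ) - |(A.1:ℝ) - A'.1|) := by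
    rw [hρ, hσ, hℓ, two_rpow_pow, abs_of_nonneg (by linarith)]
    rw [show f * (2:ℝ) ^ ((A.1:ℝ) + 1) * (f * (2:ℝ) ^ ((A'.1:ℝ) + 1)) *
      (2:ℝ) ^ (((n:ℝ) - A.1 - 1) * (2:ℕ)) = f ^ 2 * ((2:ℝ) ^ ((A.1:ℝ) + 1) *
      (2:ℝ) ^ ((A'.1:ℝ) + 1) * (2:ℝ) ^ (((n:ℝ) - A.1 - 1) * (2:ℕ))) by ring,
      ← Real.rpow_add two_pos, ← Real.rpow_add two_pos]
    congr 2; push_cast; ring
  have hfθ : (f ^ 2) ^ θ * ((Λ:ℝ) ^ 5) ^ b = (Λ:ℝ) ^ (-2 * ε * θ + 5 * b) := by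
    rw [hf, ← Real.rpow_natCast ((Λ:ℝ) ^ (-ε)) 2, ← Real.rpow_natCast (Λ:ℝ) 5,
      ← Real.rpow_mul hΛ0.le, ← Real.rpow_mul hΛ0.le, ← Real.rpow_mul hΛ0.le,
      ← Real.rpow_add hΛ0]
    congr 1; push_cast; ring
  have hexp : (2:ℝ) ^ (-(n:ℝ)) * ((2:ℝ) ^ (2 * (n:ℝ) - |(A.1:ℝ) - A'.1|)) ^ θ *
      ((2:ℝ) ^ (min 0 (n:ℝ) / 8)) ^ b ≤
      rr ^ n.natAbs * thr * (2:ℝ) ^ (-θ * |(A.1:ℝ) - A'.1|) := by
    have e1 : rr ^ n.natAbs = (2:ℝ) ^ (-κ * |(n:ℝ)|) := by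
      rw [hrr, two_rpow_pow, Nat.cast_natAbs, Int.cast_abs]
    have e2 : (2:ℝ) ^ (κ * max 0 (n:ℝ)) ≤ thr := by
      rcases le_total (0:ℝ) n with h | h
      · rw [max_eq_right h]
        refine le_trans (Real.rpow_le_rpow_of_exponent_le one_le_two ?_) htthr.le
        exact (mul_le_mul_of_nonneg_right hκ1 h).trans_eq (one_mul _)
      · rw [max_eq_left h, mul_zero, Real.rpow_zero]; exact hthr1
    rw [e1]
    refine le_trans ?_ (mul_le_mul_of_nonneg_right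
      (mul_le_mul_of_nonneg_left e2 (Real.rpow_nonneg two_pos.le _))
      (Real.rpow_nonneg two_pos.le _))
    rw [← Real.rpow_mul two_pos.le, ← Real.rpow_mul two_pos.le, ← Real.rpow_add two_pos,
      ← Real.rpow_add two_pos, ← Real.rpow_add two_pos, ← Real.rpow_add two_pos]
    refine Real.rpow_le_rpow_of_exponent_le one_le_two ?_
    have e5 : 2 * θ - 1 = -(2 * η) := by rw [hθ]; ring
    rcases le_total (0:ℝ) n with h | h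
    · rw [min_eq_left h, max_eq_right h, abs_of_nonneg h]
      have := mul_nonneg hη.le h
      nlinarith
    · rw [min_eq_right h, max_eq_left h, abs_of_nonpos h, hκ]
      nlinarith
  calc ∑ e ∈ Eg, μ e.1 * μ e.2 / DD ψ e.1 e.2
      ≤ ∑ e ∈ Eg, μ e.1 * μ e.2 * (2:ℝ) ^ (-(n:ℝ)) := by
        refine sum_le_sum fun e he => ?_
        obtain ⟨hq, hr, -⟩ := hEm e (hfacts e he).1
        rw [Real.rpow_neg two_pos.le, ← div_eq_mul_inv]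
        exact div_le_div_of_nonneg_left (mul_nonneg (hμ0 _ hq) (hμ0 _ hr)) ht0 (hDt e he).2.1
    _ ≤ CG * (f ^ 2 * (2:ℝ) ^ (2 * (n:ℝ) - |(A.1:ℝ) - A'.1|)) ^ θ *
          (KH * (Λ:ℝ) ^ 5 * (2:ℝ) ^ (min 0 (n:ℝ) / 8)) ^ b * (m A * m A') ^ (1/2 + η) *
          (2:ℝ) ^ (-(n:ℝ)) := by
        rw [← sum_mul]
        refine mul_le_mul_of_nonneg_right (hG.trans ?_) (Real.rpow_nonneg two_pos.le _)
        rw [hprod]
        refine mul_le_mul_of_nonneg_right ?_ hmm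
        exact mul_le_mul_of_nonneg_left (Real.rpow_le_rpow hHnn hH hb0.le) (by positivity)
    _ = CG * KH ^ b * ((f ^ 2) ^ θ * ((Λ:ℝ) ^ 5) ^ b) *
          ((2:ℝ) ^ (-(n:ℝ)) * ((2:ℝ) ^ (2 * (n:ℝ) - |(A.1:ℝ) - A'.1|)) ^ θ *
            ((2:ℝ) ^ (min 0 (n:ℝ) / 8)) ^ b) * (m A * m A') ^ (1/2 + η) := by
        rw [Real.mul_rpow (x := f ^ 2) (by positivity) (by positivity),
          Real.mul_rpow (x := KH * (Λ:ℝ) ^ 5) (by positivity) (by positivity),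
          Real.mul_rpow (x := KH) (by linarith) (by positivity)]
        ring
    _ ≤ CG * KH ^ b * ((f ^ 2) ^ θ * ((Λ:ℝ) ^ 5) ^ b) *
          (rr ^ n.natAbs * thr * (2:ℝ) ^ (-θ * |(A.1:ℝ) - A'.1|)) *
          (m A * m A') ^ (1/2 + η) := by
        refine mul_le_mul_of_nonneg_right (mul_le_mul_of_nonneg_left hexp ?_) hmm
        have : 0 ≤ KH := by linarith
        positivity
    _ = _ := by
        rw [hfθ, hthr, Real.rpow_add hΛ0 _ c, hA2.1, hA2.2]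
        simp only [Nat.cast_zero, add_zero, mul_zero, sub_zero]
        ring

/-- summing the groups -/
theorem close_sum {η θ κ C1 : ℝ} (hη : 0 < η) (hη' : η ≤ 1/4) (hθ0 : 0 < θ) (hκ0 : 0 < κ)
    (hC1 : 0 ≤ C1) (S : Finset ℕ) (μ : ℕ → ℝ) (hμ : ∀ q ∈ S, 0 ≤ μ q) (key : ℕ → ℤ × ℕ)
    (E : Finset (ℕ × ℕ)) (hE : ∀ e ∈ E, e.1 ∈ S ∧ e.2 ∈ S) (sz : ℕ × ℕ → ℤ) (F : ℕ × ℕ → ℝ)
    (hgroup : ∀ (A A' : ℤ × ℕ) (n : ℤ),
      ∑ e ∈ E.filter (fun e => ((key e.1, key e.2), sz e) = ((A, A'), n)), F e ≤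
      C1 * ((2:ℝ) ^ (-κ)) ^ n.natAbs *
        ((2:ℝ) ^ (-θ * |(A.1:ℝ) - A'.1| - 1 * ((A.2:ℝ) + A'.2)) *
          ((∑ q ∈ S.filter (fun q => key q = A), μ q) *
            ∑ q ∈ S.filter (fun q => key q = A'), μ q) ^ (1/2 + η))) :
    ∑ e ∈ E, F e ≤ C1 * (1 + 2 * (2:ℝ) ^ (-κ) / (1 - (2:ℝ) ^ (-κ))) *
      ((1 + 2 * (2:ℝ) ^ (-θ) / (1 - (2:ℝ) ^ (-θ))) * (1 - (2:ℝ) ^ (-(1:ℝ)))⁻¹ *
        (1 + ∑ q ∈ S, μ q) ^ 2) := by
  classical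
  set rr := (2:ℝ) ^ (-κ) with hrr
  have hr0 : 0 ≤ rr := Real.rpow_nonneg two_pos.le _
  have hr1 : rr < 1 := Real.rpow_lt_one_of_one_lt_of_neg one_lt_two (by linarith)
  set Ks := S.image key
  set Ns := E.image sz
  set m : ℤ × ℕ → ℝ := fun A => ∑ q ∈ S.filter (fun q => key q = A), μ q with hm
  have hm0 : ∀ A, 0 ≤ m A := fun A => sum_nonneg fun q hq => hμ q (mem_filter.mp hq).1
  have hmap : ∀ e ∈ E, ((key e.1, key e.2), sz e) ∈ (Ks ×ˢ Ks) ×ˢ Ns := fun e he =>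
    mem_product.mpr ⟨mem_product.mpr ⟨mem_image_of_mem _ (hE e he).1,
      mem_image_of_mem _ (hE e he).2⟩, mem_image_of_mem sz he⟩
  rw [← sum_fiberwise_of_maps_to hmap F]
  calc _ ≤ ∑ x ∈ (Ks ×ˢ Ks) ×ˢ Ns, C1 * rr ^ x.2.natAbs *
        ((2:ℝ) ^ (-θ * |(x.1.1.1:ℝ) - x.1.2.1| - 1 * ((x.1.1.2:ℝ) + x.1.2.2)) *
          (m x.1.1 * m x.1.2) ^ (1/2 + η)) := by
        refine sum_le_sum ?_
        rintro ⟨⟨A, A'⟩, n⟩ -
        exact hgroup A A' n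
    _ = C1 * (∑ n ∈ Ns, rr ^ n.natAbs) * ∑ A ∈ Ks, ∑ A' ∈ Ks,
          (2:ℝ) ^ (-θ * |(A.1:ℝ) - A'.1| - 1 * ((A.2:ℝ) + A'.2)) *
            (m A * m A') ^ (1/2 + η) := by
        rw [sum_product, sum_product, mul_sum, mul_sum]
        refine sum_congr rfl fun A _ => ?_
        rw [mul_sum]
        refine sum_congr rfl fun A' _ => ?_
        rw [sum_mul]
    _ ≤ _ := by
        have h1 := kernel_form hθ0 one_pos hη hη' Ks m hm0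
        have e : ∑ A ∈ Ks, m A = ∑ q ∈ S, μ q :=
          sum_fiberwise_of_maps_to (fun q hq => mem_image_of_mem _ hq) _
        rw [e] at h1
        exact mul_le_mul (mul_le_mul_of_nonneg_left (geom_int hr0 hr1 Ns).1 hC1) h1
          (sum_nonneg fun A _ => sum_nonneg fun A' _ => mul_nonneg
            (Real.rpow_nonneg two_pos.le _) (Real.rpow_nonneg (mul_nonneg (hm0 A) (hm0 A')) _))
          (mul_nonneg hC1 (add_nonneg zero_le_one (div_nonneg (by positivity) (by linarith))))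

open scoped Classical in
/-- The second moment inside one class. -/
theorem classBound {ε : ℝ} (hε : 0 < ε) (hε1 : ε ≤ 1) :
    ∃ K : ℝ, 0 ≤ K ∧ ∀ (γ : ℝ) (ψ : ℕ → ℝ) (C : ℕ → ℤ) (B : ℕ → ℕ) (Λ : ℕ) (C0 : ℤ) (B0 : ℕ)
      (S : Finset ℕ), Cls γ Λ C0 B0 → (∀ q ∈ S, InCls ψ C B Λ C0 B0 q) →
      ((Λ:ℝ) ^ (-ε)) ^ 2 * ∑ q ∈ S, ∑ r ∈ S.filter (fun r => r ≠ q ∧ ψ r / r ≤ ψ q / q),
          ov γ ψ C B q r ≤
        K * ((Λ:ℝ) ^ (-(ε / 4)) + (Λ:ℝ) ^ (-ε) * ∑ q ∈ S, lam ψ q) ^ 2 := by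
  set c := ε / 32 with hcdef
  have hc0 : 0 < c := by positivity
  have hc1 : c ≤ 1 := by rw [hcdef]; linarith
  set β := ε / 256 with hβdef
  have hβ : 0 < β := by positivity
  have hβ' : β ≤ 1/2 := by rw [hβdef]; linarith
  set η := β / 128 with hηdef
  have hη : 0 < η := by positivity
  have hη' : η ≤ 1/4 := by rw [hηdef]; linarith
  set θ := 1/2 - η with hθ
  have hθ38 : 3/8 ≤ θ := by rw [hθ, hηdef]; linarith
  have hθ0 : 0 < θ := by linarith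
  have hθh : θ ≤ 1/2 := by rw [hθ]; linarith
  set b := β * θ with hb
  have hb0 : 0 < b := mul_pos hβ hθ0
  set κ := b / 8 - 2 * η with hκ
  have hκ0 : 0 < κ := by
    have : β * (3/8) ≤ b := mul_le_mul_of_nonneg_left hθ38 hβ.le
    rw [hκ, hηdef]; linarith
  have hκ1 : κ ≤ 1 := by
    have : b ≤ β * 1 := mul_le_mul_of_nonneg_left (by linarith) hβ.le
    rw [hκ]; linarith
  obtain ⟨K1, hK1, hlarge⟩ := ov_large hc0 hc1
  obtain ⟨K2, hK2, hsmallov⟩ := ov_small hc0 hc1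
  obtain ⟨KH, hKH, hhits⟩ := hits
  obtain ⟨CG, hCG0, hCG⟩ := gcdIneq η β hη hη' hβ hβ'
  have hCG' : 0 ≤ CG := hCG0
  obtain ⟨W, hW⟩ : ∃ W : ℝ, W = 2 ^ 64 := ⟨_, rfl⟩
  have hW1 : 1 ≤ W := hW ▸ one_le_pow₀ one_le_two
  rw [← hW] at hlarge hsmallov hhits
  obtain ⟨CF, hCF⟩ : ∃ CF : ℝ, CF = W * CG * KH ^ b := ⟨_, rfl⟩
  have hCF0 : 0 ≤ CF := by rw [hCF]; positivity
  set rr := (2:ℝ) ^ (-κ) with hrr
  have hr0 : 0 ≤ rr := Real.rpow_nonneg two_pos.le _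
  have hr1 : rr < 1 := Real.rpow_lt_one_of_one_lt_of_neg one_lt_two (by linarith)
  set G0 := (1 + 2 * (2:ℝ) ^ (-θ) / (1 - (2:ℝ) ^ (-θ))) * (1 - (2:ℝ) ^ (-(1:ℝ)))⁻¹ with hG0
  set N0 := 1 + 2 * rr / (1 - rr) with hN0
  have hN00 : 0 ≤ N0 := add_nonneg zero_le_one (div_nonneg (by positivity) (by linarith))
  have hG00 : 0 ≤ G0 := by
    have h1 : (2:ℝ) ^ (-θ) < 1 := Real.rpow_lt_one_of_one_lt_of_neg one_lt_two (by linarith)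
    have h2 : (2:ℝ) ^ (-(1:ℝ)) < 1 := Real.rpow_lt_one_of_one_lt_of_neg one_lt_two (by norm_num)
    exact mul_nonneg (add_nonneg zero_le_one (div_nonneg (by positivity) (by linarith)))
      (inv_nonneg.mpr (by linarith))
  refine ⟨K1 + K2 * CF * N0 * G0, by positivity, fun γ ψ C B Λ C0 B0 S hc hS => ?_⟩
  have hΛ : (1:ℝ) ≤ Λ := by exact_mod_cast hc.one_le
  have hΛ0 : (0:ℝ) < Λ := by linarith
  set f := (Λ:ℝ) ^ (-ε) with hf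
  have hf0 : 0 < f := Real.rpow_pos_of_pos hΛ0 _
  have hψ : ∀ q ∈ S, 0 < ψ q := fun q hq =>
    pos_of_mul_pos_left (lt_of_lt_of_le one_pos (hS q hq).lo) (by positivity)
  have hlam : ∀ q ∈ S, 0 ≤ lam ψ q := fun q hq => by
    have := hψ q hq; unfold lam; positivity
  set μ : ℕ → ℝ := fun q => f * lam ψ q with hμ
  have hμ0 : ∀ q ∈ S, 0 ≤ μ q := fun q hq => mul_nonneg hf0.le (hlam q hq)
  set M := ∑ q ∈ S, μ q with hM
  have hMT : M = f * ∑ q ∈ S, lam ψ q := by rw [hM, mul_sum]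
  have hM0 : 0 ≤ M := sum_nonneg hμ0
  rw [← hMT]
  set thr := W * (Λ:ℝ) ^ c with hthr
  have hΛc : 1 ≤ (Λ:ℝ) ^ c := Real.one_le_rpow hΛ hc0.le
  have hthr1 : 1 ≤ thr := one_le_mul_of_one_le_of_one_le hW1 hΛc
  have hthrΛ : thr ≤ W * (Λ:ℝ) := mul_le_mul_of_nonneg_left
    ((Real.rpow_le_rpow_of_exponent_le hΛ hc1).trans_eq (Real.rpow_one _)) (by positivity)
  set E := (S ×ˢ S).filter (fun e => e.2 ≠ e.1 ∧ ψ e.2 / e.2 ≤ ψ e.1 / e.1 ∧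
    DD ψ e.1 e.2 < thr ∧ ov γ ψ C B e.1 e.2 ≠ 0) with hEdef
  have hEm : ∀ e ∈ E, e.1 ∈ S ∧ e.2 ∈ S ∧ e.2 ≠ e.1 ∧ ψ e.2 / e.2 ≤ ψ e.1 / e.1 ∧
      DD ψ e.1 e.2 < thr ∧ ov γ ψ C B e.1 e.2 ≠ 0 := fun e he => by
    obtain ⟨h, h'⟩ := mem_filter.mp he
    obtain ⟨h1, h2⟩ := mem_product.mp h
    exact ⟨h1, h2, h'⟩
  -- each pair
  have hpair : f ^ 2 * ∑ q ∈ S, ∑ r ∈ S.filter (fun r => r ≠ q ∧ ψ r / r ≤ ψ q / q),
      ov γ ψ C B q r ≤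
      K1 * M ^ 2 + K2 * (Λ:ℝ) ^ (2 * c) * ∑ e ∈ E, μ e.1 * μ e.2 / DD ψ e.1 e.2 := by
    have hstep : ∀ q ∈ S, ∀ r ∈ S,
        f ^ 2 * (if r ≠ q ∧ ψ r / r ≤ ψ q / q then ov γ ψ C B q r else 0) ≤
        K1 * (μ q * μ r) + K2 * (Λ:ℝ) ^ (2 * c) *
          (if r ≠ q ∧ ψ r / r ≤ ψ q / q ∧ DD ψ q r < thr ∧ ov γ ψ C B q r ≠ 0
            then μ q * μ r / DD ψ q r else 0) := by
      intro q hq r hr
      have h1 : 0 ≤ K1 * (μ q * μ r) := mul_nonneg hK1 (mul_nonneg (hμ0 q hq) (hμ0 r hr))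
      have hD0 : 0 ≤ DD ψ q r := mul_nonneg (hψ q hq).le (Nat.cast_nonneg _)
      have h2 : 0 ≤ K2 * (Λ:ℝ) ^ (2 * c) * (μ q * μ r / DD ψ q r) :=
        mul_nonneg (by positivity) (div_nonneg (mul_nonneg (hμ0 q hq) (hμ0 r hr)) hD0)
      by_cases hp : r ≠ q ∧ ψ r / r ≤ ψ q / q
      · rw [if_pos hp]
        rcases le_or_gt thr (DD ψ q r) with hb | hb
        · rw [if_neg (fun h => absurd h.2.2.1 (not_lt.mpr hb)), mul_zero, add_zero]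
          calc f ^ 2 * ov γ ψ C B q r ≤ f ^ 2 * (K1 * (lam ψ q * lam ψ r)) :=
                mul_le_mul_of_nonneg_left
                  (hlarge γ ψ C B Λ C0 B0 q r hc (hS q hq) (hS r hr) hp.1.symm hp.2 hb) (sq_nonneg _)
            _ = _ := by simp only [hμ]; ring
        · by_cases hov : ov γ ψ C B q r = 0
          · rw [hov, mul_zero]
            refine add_nonneg h1 ?_
            split_ifs
            · exact h2
            · rw [mul_zero]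
          · rw [if_pos ⟨hp.1, hp.2, hb, hov⟩]
            refine le_trans ?_ (le_add_of_nonneg_left h1)
            calc f ^ 2 * ov γ ψ C B q r
                ≤ f ^ 2 * (K2 * (Λ:ℝ) ^ (2 * c) * (lam ψ q * lam ψ r / DD ψ q r)) :=
                  mul_le_mul_of_nonneg_left
                    (hsmallov γ ψ C B Λ C0 B0 q r hc (hS q hq) (hS r hr) hp.1.symm hp.2 hb)
                    (sq_nonneg _)
              _ = _ := by simp only [hμ]; ring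
      · rw [if_neg hp, mul_zero]
        refine add_nonneg h1 ?_
        split_ifs
        · exact h2
        · rw [mul_zero]
    calc f ^ 2 * ∑ q ∈ S, ∑ r ∈ S.filter (fun r => r ≠ q ∧ ψ r / r ≤ ψ q / q), ov γ ψ C B q r
        = ∑ q ∈ S, ∑ r ∈ S, f ^ 2 *
            (if r ≠ q ∧ ψ r / r ≤ ψ q / q then ov γ ψ C B q r else 0) := by
          rw [mul_sum]
          exact sum_congr rfl fun q _ => by rw [sum_filter, mul_sum]
      _ ≤ _ := sum_le_sum fun q hq => sum_le_sum fun r hr => hstep q hq r hr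
      _ = _ := by
          simp only [sum_add_distrib, ← mul_sum]
          congr 1
          · rw [sq, hM, sum_mul]
          · rw [hEdef, sum_filter, sum_product]
  -- the pairs with small `D`
  set key : ℕ → ℤ × ℕ := fun q => (flg (ψ q / q), 0) with hkey
  set Ks := S.image key
  set Ns := E.image (fun e => flg (DD ψ e.1 e.2))
  set m : ℤ × ℕ → ℝ := fun A => ∑ q ∈ S.filter (fun q => key q = A), μ q with hm
  have hm0 : ∀ A, 0 ≤ m A := fun A => sum_nonneg fun q hq => hμ0 q (mem_filter.mp hq).1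
  set Φ := (Λ:ℝ) ^ (-2 * ε * θ + 5 * b + c) with hΦ
  have hgroup : ∀ (A A' : ℤ × ℕ) (n : ℤ),
      ∑ e ∈ E.filter (fun e => ((key e.1, key e.2), flg (DD ψ e.1 e.2)) = ((A, A'), n)),
        μ e.1 * μ e.2 / DD ψ e.1 e.2 ≤
      CF * Φ * rr ^ n.natAbs *
        ((2:ℝ) ^ (-θ * |(A.1:ℝ) - A'.1| - 1 * ((A.2:ℝ) + A'.2)) * (m A * m A') ^ (1/2 + η)) := by
    intro A A' n
    rw [hCF, hrr]
    exact group_le (ε := ε) hη hθ hθ0 hb hb0 hκ hκ1 hW1 hCG' hKH hCG hc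
      (fun t h0 h1 => hhits γ Λ C0 B0 hc t h0 (h1.trans hthrΛ)) hS hψ hf hthr hthr1 E hEm μ hμ key
      hkey A A' n
  have hKH0 : 0 ≤ KH := by linarith
  have hclose : ∑ e ∈ E, μ e.1 * μ e.2 / DD ψ e.1 e.2 ≤ CF * Φ * N0 * (G0 * (1 + M) ^ 2) := by
    exact close_sum (C1 := CF * Φ) hη hη' hθ0 hκ0 (mul_nonneg hCF0 (Real.rpow_nonneg hΛ0.le _)) S μ
      hμ0 key E (fun e he => ⟨(hEm e he).1, (hEm e he).2.1⟩)
      (fun e => flg (DD ψ e.1 e.2)) (fun e => μ e.1 * μ e.2 / DD ψ e.1 e.2) hgroup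
  refine hpair.trans ?_
  set u := (Λ:ℝ) ^ (-(ε / 4)) with hu
  have hu0 : 0 ≤ u := Real.rpow_nonneg hΛ0.le _
  have hu1 : u ≤ 1 := Real.rpow_le_one_of_one_le_of_nonpos hΛ (by linarith)
  have hpow : (Λ:ℝ) ^ (2 * c) * Φ ≤ u ^ 2 := by
    rw [hΦ, hu, ← Real.rpow_natCast ((Λ:ℝ) ^ (-(ε / 4))) 2, ← Real.rpow_mul hΛ0.le,
      ← Real.rpow_add hΛ0]
    refine Real.rpow_le_rpow_of_exponent_le hΛ ?_
    have h1 : ε * (3/8) ≤ ε * θ := mul_le_mul_of_nonneg_left hθ38 hε.le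
    have h2 : b ≤ β * 1 := mul_le_mul_of_nonneg_left (by linarith) hβ.le
    push_cast
    rw [hcdef]; rw [hβdef] at h2
    linarith
  have h1 : u ^ 2 * (1 + M) ^ 2 ≤ (u + M) ^ 2 := by
    rw [← mul_pow]
    refine pow_le_pow_left₀ (by positivity) ?_ 2
    have := mul_le_mul_of_nonneg_right hu1 hM0
    linarith
  have h2 : M ^ 2 ≤ (u + M) ^ 2 := pow_le_pow_left₀ hM0 (by linarith) 2
  have h3 := mul_le_mul_of_nonneg_left hclose (show 0 ≤ K2 * (Λ:ℝ) ^ (2 * c) by positivity)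
  have h4 : K2 * (Λ:ℝ) ^ (2 * c) * (CF * Φ * N0 * (G0 * (1 + M) ^ 2)) ≤
      K2 * CF * N0 * G0 * (u + M) ^ 2 := by
    calc K2 * (Λ:ℝ) ^ (2 * c) * (CF * Φ * N0 * (G0 * (1 + M) ^ 2))
        = K2 * CF * N0 * G0 * ((Λ:ℝ) ^ (2 * c) * Φ * (1 + M) ^ 2) := by ring
      _ ≤ _ := mul_le_mul_of_nonneg_left
          ((mul_le_mul_of_nonneg_right hpow (sq_nonneg _)).trans h1)
          (by positivity)
  have h5 := mul_le_mul_of_nonneg_left h2 hK1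
  linarith

end Vale.P028AS
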