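import Vale.Agent.P028.AS.Class
import Vale.Agent.P028.EV.Measure

/-! # P028 all shifts: from one class to a block meeting several classes -/

open Finset MeasureTheory
open Vale.P028EV (ASet lam ov aset_pair aset_upper isOpen_aset)

namespace Vale.P028AS

/-- Cauchy-Schwarz over classes. -/
theorem combine (ν : Measure ℝ) [IsFiniteMeasure ν] (S : Finset ℕ) (cls : ℕ → ℕ)
    (A : ℕ → Set ℝ) (hA : ∀ q, MeasurableSet (A q)) (f : ℕ → ℝ) (a : ℕ → ℝ) (ha : ∀ b, 0 < a b)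
    {K : ℝ} (hK : ∀ b ∈ S.image cls, ∑ q ∈ S.filter (fun q => cls q = b),
      ∑ r ∈ S.filter (fun r => cls r = b), f q * f r * ν.real (A q ∩ A r) ≤ K * a b ^ 2) :
    ∑ q ∈ S, ∑ r ∈ S, f q * f r * ν.real (A q ∩ A r) ≤ K * (∑ b ∈ S.image cls, a b) ^ 2 := by
  classical
  set I := S.image cls
  have key : ∀ T : Finset ℕ, ∑ q ∈ T, ∑ r ∈ T, f q * f r * ν.real (A q ∩ A r) =
      ∫ x, (∑ q ∈ T, f q * (A q).indicator (fun _ => (1:ℝ)) x) ^ 2 ∂ν ∧
      Integrable (fun x => (∑ q ∈ T, f q * (A q).indicator (fun _ => (1:ℝ)) x) ^ 2) ν := by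
    intro T
    have hi : ∀ q r, Integrable
        (fun x => f q * f r * (A q ∩ A r).indicator (fun _ => (1:ℝ)) x) ν :=
      fun q r => ((integrable_const 1).indicator ((hA q).inter (hA r))).const_mul _
    have he : (fun x => (∑ q ∈ T, f q * (A q).indicator (fun _ => (1:ℝ)) x) ^ 2) =
        fun x => ∑ q ∈ T, ∑ r ∈ T, f q * f r * (A q ∩ A r).indicator (fun _ => (1:ℝ)) x := by
      funext x
      rw [sq, sum_mul_sum]
      refine sum_congr rfl fun q _ => sum_congr rfl fun r _ => ?_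
      by_cases h1 : x ∈ A q <;> by_cases h2 : x ∈ A r <;> simp [h1, h2]
    rw [he]
    refine ⟨?_, integrable_finsetSum _ fun q _ => integrable_finsetSum _ fun r _ => hi q r⟩
    rw [integral_finsetSum _ fun q _ => integrable_finsetSum _ fun r _ => hi q r]
    refine sum_congr rfl fun q _ => ?_
    rw [integral_finsetSum _ fun r _ => hi q r]
    refine sum_congr rfl fun r _ => ?_
    rw [integral_const_mul, integral_indicator_const _ ((hA q).inter (hA r)), smul_eq_mul, mul_one]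
  set F : ℕ → ℝ → ℝ :=
    fun b x => ∑ q ∈ S.filter (fun q => cls q = b), f q * (A q).indicator (fun _ => (1:ℝ)) x
  have hpt : ∀ x, (∑ q ∈ S, f q * (A q).indicator (fun _ => (1:ℝ)) x) ^ 2 ≤
      (∑ b ∈ I, a b) * ∑ b ∈ I, F b x ^ 2 / a b := by
    intro x
    rw [← sum_fiberwise_of_maps_to (g := cls) (t := I) fun q hq => mem_image_of_mem _ hq]
    refine sum_sq_le_sum_mul_sum_of_sq_le_mul I (fun b _ => (ha b).le)
      (fun b _ => div_nonneg (sq_nonneg _) (ha b).le) (fun b _ => le_of_eq ?_)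
    have := (ha b).ne'
    field_simp
    simp only [F]
  rw [(key S).1]
  have hint : Integrable (fun x => (∑ b ∈ I, a b) * ∑ b ∈ I, F b x ^ 2 / a b) ν :=
    (integrable_finsetSum _ fun b _ => ((key _).2).div_const _).const_mul _
  refine (integral_mono (key S).2 hint hpt).trans ?_
  rw [integral_const_mul, integral_finsetSum _ fun b _ => ((key _).2).div_const _]
  calc (∑ b ∈ I, a b) * ∑ b ∈ I, ∫ x, F b x ^ 2 / a b ∂ν
      ≤ (∑ b ∈ I, a b) * ∑ b ∈ I, K * a b := by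
        refine mul_le_mul_of_nonneg_left (sum_le_sum fun b hb => ?_)
          (sum_nonneg fun b _ => (ha b).le)
        rw [integral_div, div_le_iff₀ (ha b)]
        simp only [F]
        rw [← (key _).1]
        exact (hK b hb).trans (le_of_eq (by ring))
    _ = _ := by rw [← mul_sum]; ring

open scoped Classical in
/-- The whole second moment of one class, diagonal included. -/
theorem class_total {ε : ℝ} (hε : 0 < ε) (hε1 : ε ≤ 1) :
    ∃ K : ℝ, 0 ≤ K ∧ ∀ (γ : ℝ) (ψ : ℕ → ℝ) (C : ℕ → ℤ) (B : ℕ → ℕ) (Λ : ℕ) (C0 : ℤ) (B0 : ℕ)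
      (S : Finset ℕ), Cls γ Λ C0 B0 →
      (∀ q ∈ S, InCls ψ C B Λ C0 B0 q ∧ ψ q / q * q.divisors.card ≤ lam ψ q) →
      ((Λ:ℝ) ^ (-ε)) ^ 2 * ∑ q ∈ S, ∑ r ∈ S,
          volume.real (ASet γ ψ C B q ∩ ASet γ ψ C B r ∩ Set.Ico 0 1) ≤
        K * ((Λ:ℝ) ^ (-(ε / 4)) + (Λ:ℝ) ^ (-ε) * ∑ q ∈ S, lam ψ q) ^ 2 := by
  obtain ⟨K, hK0, hK⟩ := classBound hε hε1
  refine ⟨10 + 2 * K, by positivity, fun γ ψ C B Λ C0 B0 S hc hS => ?_⟩
  have hΛ : (1:ℝ) ≤ Λ := by exact_mod_cast hc.one_le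
  have hψ : ∀ q ∈ S, 0 < ψ q ∧ ψ q ≤ 1/2 := fun q hq => by
    have hi := (hS q hq).1
    refine ⟨pos_of_mul_pos_left (lt_of_lt_of_le one_pos hi.lo) (by positivity), ?_⟩
    have h2 : (2:ℝ) ≤ 2 ^ Λ := by
      calc (2:ℝ) = 2 ^ 1 := (pow_one 2).symm
        _ ≤ _ := pow_le_pow_right₀ one_le_two hc.one_le
    have h3 : 0 < ψ q := pos_of_mul_pos_left (lt_of_lt_of_le one_pos hi.lo) (by positivity)
    nlinarith [hi.hi]
  have hlam : ∀ q ∈ S, 0 ≤ lam ψ q := fun q hq => by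
    have := (hψ q hq).1; unfold lam; positivity
  set G : ℕ → ℕ → ℝ := fun q r =>
    if r ≠ q ∧ ψ r / r ≤ ψ q / q then ov γ ψ C B q r else 0 with hG
  have hG0 : ∀ q ∈ S, ∀ r ∈ S, 0 ≤ G q r := fun q _ r hr => by
    simp only [hG]; split_ifs
    · have := (hψ r hr).1; unfold ov; positivity
    · exact le_rfl
  have hp : ∀ q ∈ S, ∀ r ∈ S,
      volume.real (ASet γ ψ C B q ∩ ASet γ ψ C B r ∩ Set.Ico 0 1)
        ≤ (if q = r then 10 * lam ψ q else 0) + G q r + G r q := by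
    intro q hq r hr
    obtain ⟨hq1, hq2⟩ := hψ q hq
    obtain ⟨hr1, hr2⟩ := hψ r hr
    have hq0 := (hS q hq).1.pos
    have hr0 := (hS r hr).1.pos
    have g1 := hG0 q hq r hr
    have g2 := hG0 r hr q hq
    rcases eq_or_ne q r with rfl | hne'
    · rw [if_pos rfl, Set.inter_self]
      have h1 := aset_upper (γ := γ) (C := C) (B := B) hq0 hq1.le hq2
      have h2 := (hS q hq).2
      have h3 : 8 * ψ q / q * q.divisors.card = 8 * (ψ q / q * q.divisors.card) := by ring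
      linarith
    · rw [if_neg hne', zero_add]
      rcases le_total (ψ r / (r:ℝ)) (ψ q / q) with h' | h'
      · have h1 := aset_pair (γ := γ) (C := C) (B := B) hq0 hr0 hq1.le hq2 hr1.le h'
        have h2 : G q r = ov γ ψ C B q r := if_pos ⟨hne'.symm, h'⟩
        linarith
      · have h1 := aset_pair (γ := γ) (C := C) (B := B) hr0 hq0 hr1.le hr2 hq1.le h'
        rw [Set.inter_comm (ASet γ ψ C B r)] at h1
        have h2 : G r q = ov γ ψ C B r q := if_pos ⟨hne', h'⟩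
        linarith
  set f := (Λ:ℝ) ^ (-ε)
  set u := (Λ:ℝ) ^ (-(ε / 4))
  have hf0 : 0 ≤ f := Real.rpow_nonneg (by linarith) _
  have hu0 : 0 ≤ u := Real.rpow_nonneg (by linarith) _
  have hfu : f ≤ u := Real.rpow_le_rpow_of_exponent_le hΛ (by linarith)
  set T := ∑ q ∈ S, lam ψ q
  have hT : 0 ≤ T := sum_nonneg hlam
  have hGs : f ^ 2 * ∑ q ∈ S, ∑ r ∈ S, G q r ≤ K * (u + f * T) ^ 2 := by
    refine le_of_eq_of_le ?_ (hK γ ψ C B Λ C0 B0 S hc fun q hq => (hS q hq).1)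
    congr 1
    exact sum_congr rfl fun q _ => by simp only [hG]; rw [sum_filter]
  calc f ^ 2 * ∑ q ∈ S, ∑ r ∈ S,
        volume.real (ASet γ ψ C B q ∩ ASet γ ψ C B r ∩ Set.Ico 0 1)
      ≤ f ^ 2 * (10 * T + 2 * ∑ q ∈ S, ∑ r ∈ S, G q r) := by
        refine mul_le_mul_of_nonneg_left ?_ (sq_nonneg _)
        refine (sum_le_sum fun q hq => sum_le_sum fun r hr => hp q hq r hr).trans (le_of_eq ?_)
        rw [sum_congr rfl (fun q _ => sum_add_distrib), sum_add_distrib,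
          sum_congr rfl (fun q _ => sum_add_distrib), sum_add_distrib,
          sum_comm (f := fun q r => G r q), mul_sum]
        have : ∀ q ∈ S, ∑ r ∈ S, (if q = r then 10 * lam ψ q else 0) = 10 * lam ψ q :=
          fun q hq => by rw [sum_ite_eq, if_pos hq]
        rw [sum_congr rfl this]; ring
    _ ≤ _ := by
        have h1 : f * (f * T) ≤ (u + f * T) * (u + f * T) :=
          mul_le_mul (by nlinarith) (by linarith) (by positivity) (by positivity)
        nlinarith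

end Vale.P028AS
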