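import Vale.Agent.P028.EV.Defs

/-! # P028 all shifts, arbitrarily small logarithmic loss: definitions

Outline of the proof. Sort the moduli into classes `2 ^ (-2 Λ) ≤ ψ q ≤ 2 ^ (-Λ)`, `Λ` a power of two.
One approximation `C / B` of the shift, attached to the radius `2 ^ (-Λ)`, serves a whole class; one
residue class is forbidden modulo each prime divisor of `q`. In a pair of one class every `n` with
`n B = m C` is killed, and for the other `n` the local factors are right up to the primes of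
`x y B (n B - m C)`. For `D = ψ q y ≥ Λ ^ c` a block sieve makes the loss bounded; for smaller `D`
the loss is `Λ ^ c`, and the bilinear gcd inequality with a count of surviving reduced pairs gains
`Λ ^ (-ε)`. Classes are combined by the Cauchy-Schwarz inequality. -/

namespace Vale.P028AS

open Vale.P028EV

/-- One class: a common approximation of the shift. -/
structure Cls (γ : ℝ) (Λ : ℕ) (C0 : ℤ) (B0 : ℕ) : Prop where
  one_le : 1 ≤ Λ
  B_pos : 0 < B0
  cop : IsCoprime C0 (B0 : ℤ)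
  B_le : (B0 : ℝ) ≤ 2 * Real.sqrt ((2:ℝ) ^ Λ)
  eps_le : |(B0 : ℝ) * γ - C0| * Real.sqrt ((2:ℝ) ^ Λ) ≤ 1

/-- `q` lies in the class `Λ` and carries the common approximation. -/
structure InCls (ψ : ℕ → ℝ) (C : ℕ → ℤ) (B : ℕ → ℕ) (Λ : ℕ) (C0 : ℤ) (B0 : ℕ) (q : ℕ) : Prop where
  pos : 0 < q
  lo : 1 ≤ ψ q * (2:ℝ) ^ (2 * Λ)
  hi : ψ q * (2:ℝ) ^ Λ ≤ 1
  C_eq : C q = C0
  B_eq : B q = B0

/-- `n B - m C` -/
def kk (C0 : ℤ) (B0 q r : ℕ) (n : ℤ) : ℤ := n * (B0 : ℤ) - mm q r * C0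

/-- `x y B |k|` -/
def RR (C0 : ℤ) (B0 q r : ℕ) (n : ℤ) : ℕ := xx q r * yy q r * B0 * (kk C0 B0 q r n).natAbs

/-- product of `1 - 1/p` over prime divisors above `z` -/
noncomputable def PL (z v : ℕ) : ℝ :=
  ∏ p ∈ v.primeFactors.filter (fun p => z < p), (1 - 1 / (p:ℝ))

/-- the condition of the selection at one prime -/
def Ok (C : ℤ) (B p : ℕ) (a : ℤ) : Prop :=
  (p ∣ B → ¬ (p:ℤ) ∣ a) ∧ (¬ p ∣ B → ¬ (p:ℤ) ∣ a * B + C)

/-- the selection at the primes up to `z` -/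
def SelZ (z : ℕ) (C : ℤ) (B q : ℕ) (a : ℤ) : Prop :=
  ∀ p ∈ q.primeFactors, p ≤ z → Ok C B p a

open scoped Classical in
/-- pairs above `n`, selected at the primes up to `z` -/
noncomputable def Nz (z : ℕ) (C : ℕ → ℤ) (B : ℕ → ℕ) (q r : ℕ) (n : ℤ) : ℕ :=
  ((Finset.range q).filter (fun a : ℕ => SelZ z (C q) (B q) q a ∧
    ∃ b : ℤ, (yy q r : ℤ) * a - (xx q r : ℤ) * b = n ∧ SelZ z (C r) (B r) r b)).card

end Vale.P028AS
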