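import Vale.Agent.P028.AS.Prod
import Vale.Agent.P028.EV.CaseA.Count
import Vale.Agent.P028.EV.Measure

/-! # P028 all shifts: the pairs above one `n` -/

open Finset
open Vale.P028EV

namespace Vale.P028AS

/-- A system of conditions, one periodic condition for each prime of `P`. -/
theorem cnt_periodic (G : ℕ → ℤ → Prop) [∀ p j, Decidable (G p j)]
    (hG : ∀ (p : ℕ) (j k : ℤ), G p (j + p * k) ↔ G p j) :
    ∀ (P : Finset ℕ), (∀ p ∈ P, p.Prime) → ∀ (g : ℕ), (∀ p ∈ P, p ∣ g) →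
      ∀ (d : ℕ), 0 < d → d ∣ g → (∀ p ∈ P, Nat.Coprime d p) → ∀ e : ℤ,
      (((range g).filter (fun j : ℕ => (d:ℤ) ∣ (j:ℤ) - e ∧ ∀ p ∈ P, G p j)).card : ℝ) =
        (g:ℝ) / d * ∏ p ∈ P, (((range p).filter (fun j : ℕ => G p j)).card : ℝ) / p := by
  intro P
  induction P using Finset.induction with
  | empty =>
    intro _ g _ d hd hdg _ e
    simp only [notMem_empty, IsEmpty.forall_iff, implies_true, and_true, prod_empty, mul_one]
    rw [CA.card_class hd hdg e, Nat.cast_div hdg (by exact_mod_cast hd.ne')]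
  | insert p P hp ih =>
    intro hprime g hg d hd hdg hcop e
    have hpp : p.Prime := hprime p (mem_insert_self _ _)
    have hdp : Nat.Coprime d p := hcop p (mem_insert_self _ _)
    have hP : ∀ r ∈ P, r.Prime := fun r h => hprime r (mem_insert_of_mem h)
    have hgP : ∀ r ∈ P, r ∣ g := fun r h => hg r (mem_insert_of_mem h)
    have hcopP : ∀ r ∈ P, Nat.Coprime (d * p) r := fun r hr =>
      Nat.Coprime.mul_left (hcop r (mem_insert_of_mem hr))
        ((Nat.coprime_primes hpp (hP r hr)).mpr fun h => hp (h ▸ hr))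
    obtain ⟨u, v, huv⟩ : ∃ u v : ℤ, u * (d:ℤ) + v * p = 1 :=
      (Nat.isCoprime_iff_coprime.2 hdp : IsCoprime (d:ℤ) (p:ℤ))
    have hper : ∀ j : ℕ, G p (j:ℤ) ↔ G p ((j % p : ℕ) : ℤ) := by
      intro j
      conv_lhs => rw [← Nat.mod_add_div j p]
      push_cast
      exact hG p _ _
    rw [card_eq_sum_card_fiberwise (f := fun j : ℕ => j % p)
      (t := (range p).filter (fun j : ℕ => G p j)) (fun j hj => by
        simp only [coe_filter, Set.mem_setOf_eq, mem_range] at hj ⊢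
        exact ⟨Nat.mod_lt _ hpp.pos, (hper j).mp (hj.2.2 p (mem_insert_self _ _))⟩)]
    rw [Nat.cast_sum]
    have hfib : ∀ r ∈ (range p).filter (fun j : ℕ => G p j),
        ((((range g).filter (fun j : ℕ => (d:ℤ) ∣ (j:ℤ) - e ∧ ∀ s ∈ insert p P, G s j)).filter
          (fun j => j % p = r)).card : ℝ) =
          (g:ℝ) / (d * p : ℕ) *
            ∏ s ∈ P, (((range s).filter (fun j : ℕ => G s j)).card : ℝ) / s := by
      intro r hr
      obtain ⟨hrp, hGr⟩ := mem_filter.mp hr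
      rw [mem_range] at hrp
      rw [← ih hP g hgP (d * p) (Nat.mul_pos hd hpp.pos)
        (Nat.Coprime.mul_dvd_of_dvd_of_dvd hdp hdg (hg p (mem_insert_self _ _))) hcopP
        (e * v * p + r * u * d), filter_filter]
      congr 2
      refine filter_congr fun j _ => ?_
      have e1 : (j:ℤ) - (e * v * p + r * u * d) = ((j:ℤ) - e) + (d:ℤ) * ((e - r) * u) := by
        linear_combination -e * huv
      have e2 : (j:ℤ) - (e * v * p + r * u * d) = ((j:ℤ) - r) + (p:ℤ) * ((r - e) * v) := by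
        linear_combination -(r:ℤ) * huv
      have hmod : j % p = r ↔ (p:ℤ) ∣ (j:ℤ) - r := by
        rw [← Int.modEq_iff_dvd, Int.natCast_modEq_iff, Nat.ModEq, Nat.mod_eq_of_lt hrp, eq_comm]
      push_cast
      rw [forall_mem_insert, hmod]
      constructor
      · rintro ⟨⟨h1, -, h3⟩, h4⟩
        refine ⟨IsCoprime.mul_dvd ⟨u, v, huv⟩ ?_ ?_, h3⟩
        · rw [e1]; exact dvd_add h1 (dvd_mul_right _ _)
        · rw [e2]; exact dvd_add h4 (dvd_mul_right _ _)
      · rintro ⟨h, h3⟩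
        have h1 : (d:ℤ) ∣ (j:ℤ) - e :=
          (Int.dvd_add_left (dvd_mul_right _ _)).mp (e1 ▸ dvd_of_mul_right_dvd h)
        have h4 : (p:ℤ) ∣ (j:ℤ) - r :=
          (Int.dvd_add_left (dvd_mul_right _ _)).mp (e2 ▸ dvd_of_mul_left_dvd h)
        refine ⟨⟨h1, (hper j).mpr ?_, h3⟩, h4⟩
        rw [hmod.mpr h4]; exact hGr
    rw [sum_congr rfl hfib, sum_const, nsmul_eq_mul, prod_insert hp]
    push_cast
    ring

theorem ok_add_mul (C : ℤ) (B p : ℕ) (a k : ℤ) : Ok C B p (a + p * k) ↔ Ok C B p a := by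
  have h1 : (p:ℤ) ∣ a + p * k ↔ (p:ℤ) ∣ a := Int.dvd_add_left (dvd_mul_right _ _)
  have h2 : (p:ℤ) ∣ (a + p * k) * B + C ↔ (p:ℤ) ∣ a * B + C := by
    rw [show (a + p * k) * B + C = (a * B + C) + p * (k * B) by ring]
    exact Int.dvd_add_left (dvd_mul_right _ _)
  unfold Ok; rw [h1, h2]

theorem ok_congr (C : ℤ) (B : ℕ) {p : ℕ} {a a' : ℤ} (h : (p:ℤ) ∣ a - a') :
    Ok C B p a ↔ Ok C B p a' := by
  obtain ⟨k, hk⟩ := h
  rw [show a = a' + p * k by linarith]
  exact ok_add_mul _ _ _ _ _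

theorem sel_iff (C : ℤ) (B q : ℕ) (a : ℤ) : Sel C B q a ↔ ∀ p ∈ q.primeFactors, Ok C B p a :=
  Iff.rfl

/-- A prime not dividing `x` has a residue killed by the condition. -/
theorem exists_bad (C : ℤ) {B p x : ℕ} (hp : p.Prime) (hB : ¬ p ∣ B) (hx : ¬ p ∣ x) (a0 : ℤ) :
    ∃ j : ℕ, j < p ∧ (p:ℤ) ∣ (a0 + (x:ℤ) * j) * B + C := by
  have hxB : ¬ p ∣ x * B := fun h => (hp.dvd_mul.mp h).elim hx hB
  obtain ⟨u, v, huv⟩ : ∃ u v : ℤ, u * ((x * B : ℕ):ℤ) + v * p = 1 :=
    (Nat.isCoprime_iff_coprime.2 ((hp.coprime_iff_not_dvd).mpr hxB).symm :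
      IsCoprime ((x * B : ℕ):ℤ) (p:ℤ))
  push_cast at huv
  have hp0 : (0:ℤ) < p := by exact_mod_cast hp.pos
  set w : ℤ := -(u * (a0 * B + C)) with hw
  refine ⟨(w % p).toNat, by
    have := Int.emod_lt_of_pos w hp0
    have := Int.emod_nonneg w hp0.ne'
    omega, ?_⟩
  rw [Int.toNat_of_nonneg (Int.emod_nonneg w hp0.ne'), Int.emod_def]
  refine ⟨-((x:ℤ) * B * (w / p)) + v * (a0 * B + C), ?_⟩
  rw [hw]
  linear_combination -(a0 * B + C) * huv


open scoped Classical in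
/-- An `n` with `n B = m C` has no pairs. -/
theorem Nn_eq_zero {C : ℕ → ℤ} {B : ℕ → ℕ} {C0 : ℤ} {B0 q r : ℕ} {n : ℤ} (hq : 0 < q) (hr : 0 < r)
    (hne : q ≠ r) (hcop : IsCoprime C0 (B0 : ℤ)) (hCq : C q = C0) (hCr : C r = C0) (hBq : B q = B0)
    (hBr : B r = B0) (hk : kk C0 B0 q r n = 0) : Nn C B q r n = 0 := by
  unfold Nn
  rw [card_eq_zero, filter_eq_empty_iff]
  rintro a - ⟨hsel, b, hb, hselb⟩
  rw [hCq, hBq] at hsel
  rw [hCr, hBr] at hselb
  have hgx := gcd_mul_xx q r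
  have hgy := gcd_mul_yy q r
  have hxy : Nat.Coprime (xx q r) (yy q r) :=
    Nat.coprime_div_gcd_div_gcd (Nat.gcd_pos_of_pos_left r hq)
  have key : (yy q r : ℤ) * ((a:ℤ) * B0 + C0) = (xx q r : ℤ) * (b * B0 + C0) := by
    unfold kk mm at hk
    linear_combination hk + (B0:ℤ) * hb
  have main : ∀ (x y v : ℕ) (s t : ℤ), x ≠ 1 → x ∣ v → 0 < v → Nat.Coprime x y →
      (y:ℤ) * (s * B0 + C0) = (x:ℤ) * t → Sel C0 B0 v s → False := by
    intro x y v s t hx hxv hv hco he hs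
    obtain ⟨p, hp, hpx⟩ := Nat.exists_prime_and_dvd hx
    have hpy : ¬ p ∣ y := fun h => Nat.Prime.not_dvd_one hp
      (by rw [← Nat.Coprime.gcd_eq_one hco]; exact Nat.dvd_gcd hpx h)
    have h1 : (p:ℤ) ∣ (y:ℤ) * (s * B0 + C0) := by
      rw [he]; exact dvd_mul_of_dvd_left (Int.natCast_dvd_natCast.mpr hpx) _
    have h2 : (p:ℤ) ∣ s * B0 + C0 := ((Nat.prime_iff_prime_int.mp hp).dvd_or_dvd h1).resolve_left
      fun h => hpy (Int.natCast_dvd_natCast.mp h)
    have hpB : ¬ p ∣ B0 := fun h => by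
      have h3 : (p:ℤ) ∣ (B0:ℤ) := Int.natCast_dvd_natCast.mpr h
      have h4 : (p:ℤ) ∣ C0 := by
        simpa using dvd_sub h2 (dvd_mul_of_dvd_right h3 s)
      exact (Nat.prime_iff_prime_int.mp hp).not_unit (hcop.isUnit_of_dvd' h4 h3)
    exact (hs p (Nat.mem_primeFactors.mpr ⟨hp, hpx.trans hxv, hv.ne'⟩)).2 hpB h2
  rcases eq_or_ne (xx q r) 1 with hx | hx
  · refine main (yy q r) (xx q r) r b ((a:ℤ) * B0 + C0) (fun hy => hne ?_)
      ⟨_, (Nat.mul_comm _ _).trans hgy |>.symm⟩ hr hxy.symm key.symm hselb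
    rw [← hgx, hx, ← hy, hgy]
  · exact main (xx q r) (yy q r) q a (b * B0 + C0) hx ⟨_, (Nat.mul_comm _ _).trans hgx |>.symm⟩
      hq hxy key hsel

open scoped Classical in
/-- The pairs above `n` are sieved independently above `z`, up to the primes of `x y B k`. -/
theorem Nn_split {C : ℕ → ℤ} {B : ℕ → ℕ} {C0 : ℤ} {B0 q r : ℕ} {n : ℤ} (z : ℕ) (hq : 0 < q)
    (hr : 0 < r) (hB0 : 0 < B0) (hCq : C q = C0) (hCr : C r = C0) (hBq : B q = B0)
    (hBr : B r = B0) (hk : kk C0 B0 q r n ≠ 0) :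
    (Nn C B q r n : ℝ) * PL z (RR C0 B0 q r n) ^ 2 ≤
      (Nz z C B q r n : ℝ) * (PL z q * PL z r) := by
  have hgx := gcd_mul_xx q r
  have hgy := gcd_mul_yy q r
  set g := Nat.gcd q r with hg
  set x := xx q r with hxdef
  set y := yy q r with hydef
  have hg0 : 0 < g := Nat.gcd_pos_of_pos_left r hq
  have hx0 : 0 < x := xx_pos r hq
  have hy0 : 0 < y := Nat.pos_of_mul_pos_left (hgy.symm ▸ hr)
  have hxy : Nat.Coprime x y := Nat.coprime_div_gcd_div_gcd hg0
  set R := RR C0 B0 q r n with hR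
  have hR0 : 0 < R := by
    rw [hR, RR]
    exact Nat.mul_pos (Nat.mul_pos (Nat.mul_pos hx0 hy0) hB0) (Int.natAbs_pos.mpr hk)
  have hPLR := PL_pos z R
  have hPq := PL_pos z q
  have hPr := PL_pos z r
  rcases Nat.eq_zero_or_pos (Nn C B q r n) with h0 | h0
  · rw [h0, Nat.cast_zero, zero_mul]; positivity
  obtain ⟨a0, ha0⟩ := card_pos.mp h0
  obtain ⟨-, hsel0, b0, hb0, hselb0⟩ := mem_filter.mp ha0
  rw [← hxdef, ← hydef] at hb0
  rw [hCq, hBq] at hsel0
  rw [hCr, hBr] at hselb0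
  set G : ℕ → ℤ → Prop := fun p j => (p ∣ q → Ok C0 B0 p ((a0:ℤ) + x * j)) ∧
    (p ∣ r → Ok C0 B0 p (b0 + y * j)) with hGdef
  have hG : ∀ (p : ℕ) (j k : ℤ), G p (j + p * k) ↔ G p j := by
    intro p j k
    simp only [hGdef, show (a0:ℤ) + x * (j + p * k) = ((a0:ℤ) + x * j) + p * (x * k) by ring,
      show b0 + y * (j + p * k) = (b0 + y * j) + p * (y * k) by ring, ok_add_mul]
  set P := g.primeFactors
  have hPp : ∀ p ∈ P, p.Prime := fun p h => Nat.prime_of_mem_primeFactors h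
  have hPd : ∀ p ∈ P, p ∣ g := fun p h => Nat.dvd_of_mem_primeFactors h
  -- all conditions
  have hall : (Nn C B q r n : ℝ) ≤
      (((range g).filter (fun j : ℕ => ((1:ℕ):ℤ) ∣ (j:ℤ) - 0 ∧ ∀ p ∈ P, G p j)).card : ℝ) := by
    refine Nat.cast_le.mpr (card_le_card_of_injOn
      (fun a : ℕ => ((((a:ℤ) - a0) / x) % g).toNat) ?_ ?_)
    · intro a ha
      simp only [coe_filter, Set.mem_setOf_eq, mem_range] at ha ⊢
      obtain ⟨haq, hs, b, hb, hsb⟩ := ha
      rw [← hxdef, ← hydef] at hb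
      rw [hCq, hBq] at hs
      rw [hCr, hBr] at hsb
      obtain ⟨t, ht⟩ : (x:ℤ) ∣ (a:ℤ) - a0 := by
        refine IsCoprime.dvd_of_dvd_mul_left (Nat.isCoprime_iff_coprime.mpr hxy) ⟨b - b0, ?_⟩
        linear_combination hb - hb0
      have hbt : b = b0 + y * t := by
        refine mul_left_cancel₀ (show (x:ℤ) ≠ 0 by exact_mod_cast hx0.ne') ?_
        linear_combination hb0 - hb + (y:ℤ) * ht
      rw [show ((a:ℤ) - a0) / x = t by rw [ht, Int.mul_ediv_cancel_left _ (by exact_mod_cast hx0.ne')]]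
      have hg' : (0:ℤ) < g := by exact_mod_cast hg0
      have hm0 := Int.emod_nonneg t hg'.ne'
      have hm1 := Int.emod_lt_of_pos t hg'
      refine ⟨by omega, by simp, fun p hp => ?_⟩
      rw [Int.toNat_of_nonneg hm0]
      obtain ⟨w, hw⟩ : (p:ℤ) ∣ t % g - t := by
        refine (Int.natCast_dvd_natCast.mpr (hPd p hp)).trans ⟨-(t / g), ?_⟩
        rw [Int.emod_def]; ring
      rw [show t % g = t + p * w by linarith, hG]
      refine ⟨fun h => ?_, fun h => ?_⟩
      · rw [show (a0:ℤ) + x * t = a by linarith]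
        exact hs p (Nat.mem_primeFactors.mpr ⟨hPp p hp, h, hq.ne'⟩)
      · rw [← hbt]
        exact hsb p (Nat.mem_primeFactors.mpr ⟨hPp p hp, h, hr.ne'⟩)
    · intro a ha a' ha' he
      simp only [coe_filter, Set.mem_setOf_eq, mem_range] at ha ha'
      have hg' : (0:ℤ) < g := by exact_mod_cast hg0
      have hd : ∀ c : ℕ, (∃ b : ℤ, (y:ℤ) * c - x * b = n) → (x:ℤ) ∣ (c:ℤ) - a0 := by
        rintro c ⟨b, hb⟩
        refine IsCoprime.dvd_of_dvd_mul_left (Nat.isCoprime_iff_coprime.mpr hxy) ⟨b - b0, ?_⟩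
        linear_combination hb - hb0
      obtain ⟨haq, -, b, hb, -⟩ := ha
      obtain ⟨haq', -, b', hb', -⟩ := ha'
      obtain ⟨t, ht⟩ := hd a ⟨b, hb⟩
      obtain ⟨t', ht'⟩ := hd a' ⟨b', hb'⟩
      simp only [ht, ht', Int.mul_ediv_cancel_left _ (show (x:ℤ) ≠ 0 by exact_mod_cast hx0.ne')]
        at he
      have e1 : t % g = t' % g := by
        have := congrArg (fun z : ℕ => (z:ℤ)) he
        simpa [Int.toNat_of_nonneg (Int.emod_nonneg _ hg'.ne')] using this
      obtain ⟨w, hw⟩ := Int.ModEq.dvd e1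
      have e2 : (q:ℤ) ∣ (a':ℤ) - a := ⟨w, by
        rw [← hgx]; push_cast
        linear_combination ht' - ht + (x:ℤ) * hw⟩
      have hlt : |(a':ℤ) - a| < q := by
        rw [abs_lt]; omega
      have := Int.eq_zero_of_abs_lt_dvd e2 hlt
      omega
  -- the conditions up to `z`
  set Ps := P.filter (fun p => p ≤ z)
  set Pl := P.filter (fun p => z < p)
  have hsmall : (((range g).filter (fun j : ℕ => ((1:ℕ):ℤ) ∣ (j:ℤ) - 0 ∧ ∀ p ∈ Ps, G p j)).card : ℝ)
      ≤ (Nz z C B q r n : ℝ) := by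
    refine Nat.cast_le.mpr (card_le_card_of_injOn
      (fun j : ℕ => (a0 + x * j) % q) ?_ ?_)
    · intro j hj
      simp only [coe_filter, Set.mem_setOf_eq, mem_range] at hj ⊢
      obtain ⟨-, -, hj⟩ := hj
      refine ⟨Nat.mod_lt _ hq, ?_⟩
      set a' := (a0 + x * j) % q with ha'
      set w := (a0 + x * j) / q with hw
      have ea : (a':ℤ) = (a0:ℤ) + x * j - (q:ℤ) * w := by
        have h1 : (a':ℤ) + (q:ℤ) * w = (a0:ℤ) + x * j := by
          exact_mod_cast Nat.mod_add_div (a0 + x * j) q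
        linarith
      have key : ∀ (v : ℕ) (s s0 : ℤ) (u : ℕ), 0 < v → g * u = v →
          (v:ℤ) ∣ s - (s0 + u * j) → Sel C0 B0 v s0 →
          (∀ p, p ∈ Ps → p ∣ v → Ok C0 B0 p (s0 + u * j)) → SelZ z C0 B0 v s := by
        intro v s s0 u hv hgu hs hsel hok p hp hpz
        obtain ⟨hpp, hpv, -⟩ := Nat.mem_primeFactors.mp hp
        rw [ok_congr C0 B0 ((Int.natCast_dvd_natCast.mpr hpv).trans hs)]
        by_cases hpg : p ∣ g
        · exact hok p (mem_filter.mpr ⟨Nat.mem_primeFactors.mpr ⟨hpp, hpg, hg0.ne'⟩, hpz⟩) hpv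
        · have hpu : (p:ℤ) ∣ (u:ℤ) := Int.natCast_dvd_natCast.mpr
            ((hpp.dvd_mul.mp (hgu.symm ▸ hpv)).resolve_left hpg)
          rw [ok_congr C0 B0 (a' := s0) (by rw [add_sub_cancel_left]; exact dvd_mul_of_dvd_left hpu _)]
          exact hsel p hp
      rw [hCq, hBq, hCr, hBr]
      refine ⟨key q a' a0 x hq hgx ⟨-(w:ℤ), by rw [ea]; ring⟩ hsel0
        (fun p hp h => (hj p hp).1 h), b0 + y * j - r * w, ?_, ?_⟩
      · have hqy : (q:ℤ) * y = r * x := by
          rw [← hgx, ← hgy]; push_cast; ring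
        rw [← hxdef, ← hydef, ea]
        linear_combination hb0 - (w:ℤ) * hqy
      · exact key r _ b0 y hr hgy ⟨-(w:ℤ), by ring⟩ hselb0 (fun p hp h => (hj p hp).2 h)
    · intro j hj j' hj' he
      simp only [coe_filter, Set.mem_setOf_eq, mem_range] at hj hj'
      obtain ⟨u, hu⟩ := Nat.modEq_iff_dvd.mp he
      have e : (g:ℤ) ∣ (j':ℤ) - j := by
        refine ⟨u, mul_left_cancel₀ (show (x:ℤ) ≠ 0 by exact_mod_cast hx0.ne') ?_⟩
        rw [← hgx] at hu; push_cast at hu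
        linear_combination hu
      have := Int.eq_zero_of_abs_lt_dvd e (by rw [abs_lt]; omega)
      omega
  set f : ℕ → ℝ := fun p => (((range p).filter (fun j : ℕ => G p j)).card : ℝ) / p
  have hc1 := cnt_periodic G hG P hPp g hPd 1 one_pos (one_dvd g)
    (fun p _ => Nat.coprime_one_left p) 0
  have hc2 := cnt_periodic G hG Ps (fun p h => hPp p (filter_subset _ _ h)) g
    (fun p h => hPd p (filter_subset _ _ h)) 1 one_pos (one_dvd g)
    (fun p _ => Nat.coprime_one_left p) 0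
  have hPsplit : ∏ p ∈ P, f p = (∏ p ∈ Ps, f p) * ∏ p ∈ Pl, f p := by
    rw [← prod_filter_mul_prod_filter_not P (fun p => p ≤ z)]
    simp only [not_le, Ps, Pl]
  have hNn : (Nn C B q r n : ℝ) ≤ (Nz z C B q r n : ℝ) * ∏ p ∈ Pl, f p := by
    refine hall.trans ?_
    rw [hc1, hPsplit, ← mul_assoc, ← hc2]
    exact mul_le_mul_of_nonneg_right hsmall (prod_nonneg fun p _ => by positivity)
  -- each large prime
  set Pg := Pl.filter (fun p => ¬ p ∣ R) with hPg
  set a : ℕ → ℝ := fun p => 1 - 1 / (p:ℝ) with ha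
  have hf : ∀ p ∈ Pg, f p ≤ a p ^ 2 := by
    intro p hp
    obtain ⟨hpl, hpR⟩ := mem_filter.mp hp
    have hpg : p ∈ P := filter_subset _ _ hpl
    have hpp := hPp p hpg
    rw [hR, RR] at hpR
    simp only [hpp.dvd_mul, not_or] at hpR
    obtain ⟨⟨⟨hpx, hpy⟩, hpB⟩, hpk⟩ := hpR
    obtain ⟨jA, hjA, hA⟩ := exists_bad C0 hpp hpB hpx (a0:ℤ)
    obtain ⟨jB, hjB, hB⟩ := exists_bad C0 hpp hpB hpy b0
    have hpq : p ∣ q := (hPd p hpg).trans (Nat.gcd_dvd_left q r)
    have hpr : p ∣ r := (hPd p hpg).trans (Nat.gcd_dvd_right q r)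
    have hne : jA ≠ jB := by
      intro h
      refine hpk (Int.natCast_dvd.mp ?_)
      rw [← h] at hB
      have e : kk C0 B0 q r n = (y:ℤ) * (((a0:ℤ) + x * jA) * B0 + C0)
          - x * ((b0 + y * jA) * B0 + C0) := by
        unfold kk mm; rw [← hxdef, ← hydef]; linear_combination -(B0:ℤ) * hb0
      rw [e]
      exact dvd_sub (dvd_mul_of_dvd_right hA _) (dvd_mul_of_dvd_right hB _)
    have hsub : (range p).filter (fun j : ℕ => G p j) ⊆ range p \ {jA, jB} := by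
      intro j hj
      obtain ⟨h1, h2⟩ := mem_filter.mp hj
      refine mem_sdiff.mpr ⟨h1, ?_⟩
      rw [mem_insert, mem_singleton]
      rintro (rfl | rfl)
      · exact (h2.1 hpq).2 hpB hA
      · exact (h2.2 hpr).2 hpB hB
    have hcard : (((range p).filter (fun j : ℕ => G p j)).card : ℝ) ≤ (p:ℝ) - 2 := by
      have h := card_le_card hsub
      rw [card_sdiff_of_subset (by
        intro j hj
        rw [mem_insert, mem_singleton] at hj
        rcases hj with rfl | rfl <;> exact mem_range.mpr ‹_›), card_range, card_pair hne] at h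
      have : ((p - 2 : ℕ):ℝ) = (p:ℝ) - 2 := by
        rw [Nat.cast_sub hpp.two_le]; norm_num
      rw [← this]; exact_mod_cast h
    have hpR' : (0:ℝ) < p := by exact_mod_cast hpp.pos
    calc f p ≤ ((p:ℝ) - 2) / p := div_le_div_of_nonneg_right hcard hpR'.le
      _ ≤ a p ^ 2 := by
          simp only [ha]
          rw [div_le_iff₀ hpR', show (1 - 1 / (p:ℝ)) ^ 2 * p = (p:ℝ) - 2 + 1 / p by
            field_simp; ring]
          linarith [show (0:ℝ) ≤ 1 / (p:ℝ) by positivity]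
  have hf1 : ∀ p ∈ Pl, f p ≤ 1 := fun p hp => by
    simp only [f]
    rw [div_le_one (by exact_mod_cast (hPp p (filter_subset _ _ hp)).pos)]
    exact_mod_cast (card_filter_le _ _).trans (card_range p).le
  have hPl : ∏ p ∈ Pl, f p ≤ (∏ p ∈ Pg, a p) ^ 2 := by
    rw [← prod_filter_mul_prod_filter_not Pl (fun p => ¬ p ∣ R), ← prod_pow]
    refine (mul_le_of_le_one_right (prod_nonneg fun p _ => by positivity) ?_).trans
      (prod_le_prod (fun p _ => by positivity) hf)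
    exact prod_le_one (fun p _ => by positivity) fun p hp => hf1 p (filter_subset _ _ hp)
  have hside : ∀ v u : ℕ, 0 < v → g * u = v → u ∣ R → (∏ p ∈ Pg, a p) * PL z R ≤ PL z v := by
    intro v u hv hgu huR
    set V := v.primeFactors.filter (fun p => z < p) with hV
    set T := R.primeFactors.filter (fun p => z < p) with hT
    have hdis : Disjoint Pg T := Finset.disjoint_left.mpr fun p h1 h2 =>
      (mem_filter.mp h1).2 (Nat.dvd_of_mem_primeFactors (filter_subset _ _ h2))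
    rw [show PL z R = ∏ p ∈ T, a p from rfl, ← prod_union hdis, show PL z v = ∏ p ∈ V, a p from rfl]
    refine prod_le_prod_of_subset_of_le_one (fun p hp => ?_) (fun p hp => ?_) (fun p hp _ => ?_)
    · obtain ⟨hp1, hzp⟩ := mem_filter.mp hp
      obtain ⟨hpp, hpv, -⟩ := Nat.mem_primeFactors.mp hp1
      by_cases hpR : p ∣ R
      · exact mem_union_right _ (mem_filter.mpr
          ⟨Nat.mem_primeFactors.mpr ⟨hpp, hpR, hR0.ne'⟩, hzp⟩)
      · refine mem_union_left _ (mem_filter.mpr ⟨mem_filter.mpr ⟨?_, hzp⟩, hpR⟩)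
        exact Nat.mem_primeFactors.mpr ⟨hpp, (hpp.dvd_mul.mp (hgu.symm ▸ hpv)).resolve_right
          (fun h => hpR (h.trans huR)), hg0.ne'⟩
    all_goals
      have hpr : p.Prime := by
        rcases mem_union.mp hp with h | h
        · exact hPp p (filter_subset _ _ (filter_subset _ _ h))
        · exact Nat.prime_of_mem_primeFactors (filter_subset _ _ h)
    · exact (factor_bounds hpr).1.le
    · exact (factor_bounds hpr).2.1
  have hxR : x ∣ R := by
    rw [hR, RR, ← hxdef]; exact Dvd.dvd.mul_right (Dvd.dvd.mul_right (dvd_mul_right _ _) _) _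
  have hyR : y ∣ R := by
    rw [hR, RR, ← hydef]; exact Dvd.dvd.mul_right (Dvd.dvd.mul_right (dvd_mul_left _ _) _) _
  have ha0' : 0 ≤ (∏ p ∈ Pg, a p) * PL z R := mul_nonneg (prod_nonneg fun p hp =>
    (factor_bounds (hPp p (filter_subset _ _ (filter_subset _ _ hp)))).1.le) hPLR.le
  calc (Nn C B q r n : ℝ) * PL z R ^ 2
      ≤ (Nz z C B q r n : ℝ) * (∏ p ∈ Pg, a p) ^ 2 * PL z R ^ 2 :=
        mul_le_mul_of_nonneg_right (hNn.trans (mul_le_mul_of_nonneg_left hPl (Nat.cast_nonneg _)))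
          (sq_nonneg _)
    _ = (Nz z C B q r n : ℝ) * (((∏ p ∈ Pg, a p) * PL z R) * ((∏ p ∈ Pg, a p) * PL z R)) := by
        ring
    _ ≤ _ := mul_le_mul_of_nonneg_left
        (mul_le_mul (hside q x hq hgx hxR) (hside r y hr hgy hyR) ha0' hPq.le) (Nat.cast_nonneg _)

open scoped Classical in
/-- at most `gcd q r` pairs above one `n` -/
theorem Nz_le {C : ℕ → ℤ} {B : ℕ → ℕ} {q r : ℕ} (z : ℕ) (hq : 0 < q) (n : ℤ) :
    Nz z C B q r n ≤ Nat.gcd q r := by
  have hgx := gcd_mul_xx q r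
  set g := Nat.gcd q r
  set x := xx q r
  have hg0 : 0 < g := Nat.gcd_pos_of_pos_left r hq
  have hx0 : 0 < x := xx_pos r hq
  have hxy : Nat.Coprime x (yy q r) := Nat.coprime_div_gcd_div_gcd hg0
  conv_rhs => rw [← card_range g]
  refine card_le_card_of_injOn (fun a => a / x) (fun a ha => ?_) (fun a ha a' ha' he => ?_)
  · simp only [coe_filter, Set.mem_setOf_eq, mem_range, coe_range, Set.mem_Iio] at ha ⊢
    rw [Nat.div_lt_iff_lt_mul hx0, hgx]; exact ha.1
  · simp only [coe_filter, Set.mem_setOf_eq, mem_range] at ha ha'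
    obtain ⟨-, -, b, hb, -⟩ := ha
    obtain ⟨-, -, b', hb', -⟩ := ha'
    have h : (x:ℤ) ∣ (a':ℤ) - a :=
      IsCoprime.dvd_of_dvd_mul_left (Nat.isCoprime_iff_coprime.mpr hxy)
        ⟨b' - b, by linear_combination hb' - hb⟩
    have hm : a % x = a' % x := Nat.modEq_iff_dvd.mpr h
    rw [← Nat.mod_add_div a x, ← Nat.mod_add_div a' x, hm]
    simp only at he
    rw [he]

end Vale.P028AS
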