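import Vale.Agent.P028.AS.Combine
import Vale.Agent.P028.AS.Full
import Vale.Agent.P028.EV.Weights

/-! # P028 all shifts: assembly -/

open Finset MeasureTheory Filter
open Vale.P028EV (ASet lam exists_approx tau_le_totient exists_unit_block tau totTau isOpen_aset
  aset_add_int)

namespace Vale.P028AS

/-- For every shift, divergence with an arbitrarily small logarithmic loss gives full measure. -/
theorem main (γ ε : ℝ) (hε : 0 < ε) (ψ : ℕ → ℝ) (hψ : ∀ q, 0 ≤ ψ q)
    (hdiv : ¬ Summable fun q : ℕ => (Nat.totient q : ℝ) * ψ q /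
      ((q : ℝ) * (1 + min (Real.log q) (max 0 (Real.log (1 / ψ q)))) ^ ε)) :
    volume {x : ℝ | ¬ {q : ℕ | 0 < q ∧ ∃ a : ℤ, |(q : ℝ) * x - a - γ| < ψ q}.Infinite} = 0 := by
  classical
  by_cases hbig : {q : ℕ | 0 < q ∧ 1/2 < ψ q}.Infinite
  · refine measure_mono_null (fun x hx => ?_) (measure_empty (μ := volume))
    refine absurd (hbig.mono fun q hq => ?_) hx
    refine ⟨hq.1, round ((q:ℝ) * x - γ), ?_⟩
    have := abs_sub_round ((q:ℝ) * x - γ)
    calc |(q:ℝ) * x - (round ((q:ℝ) * x - γ) : ℝ) - γ|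
        = |(q:ℝ) * x - γ - (round ((q:ℝ) * x - γ) : ℝ)| := by congr 1; ring
      _ < ψ q := lt_of_le_of_lt this hq.2
  obtain ⟨Q0, hQ0⟩ := (Set.not_infinite.mp hbig).bddAbove
  have hhalf : ∀ q, Q0 < q → ψ q ≤ 1/2 := fun q hq => by
    by_contra h
    exact absurd (hQ0 ⟨by omega, not_le.mp h⟩) (by omega)
  set e := min ε 1 with he
  have he0 : 0 < e := lt_min hε one_pos
  have he1 : e ≤ 1 := min_le_right _ _
  -- the support and the classes
  set P : ℕ → Prop := fun q => Q0 < q ∧ 1 ≤ ψ q * (q:ℝ) ^ (3:ℕ)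
  set ψ' : ℕ → ℝ := fun q => if P q then ψ q else 0 with hψ'
  have hψ'0 : ∀ q, 0 ≤ ψ' q := fun q => by
    simp only [hψ']; split_ifs
    · exact hψ q
    · exact le_rfl
  have hψ'le : ∀ q, ψ' q ≤ ψ q := fun q => by
    simp only [hψ']; split_ifs
    · exact le_rfl
    · exact hψ q
  have hψ'half : ∀ q, ψ' q ≤ 1/2 := fun q => by
    simp only [hψ']; split_ifs with h
    · exact hhalf q h.1
    · norm_num
  set k : ℕ → ℕ := fun q => ⌊Real.logb 2 (1 / ψ' q)⌋₊
  set cls : ℕ → ℕ := fun q => Nat.log 2 (k q) with hcls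
  have hap : ∀ b : ℕ, ∃ (C0 : ℤ) (B0 : ℕ), Cls γ (2 ^ b) C0 B0 := by
    intro b
    set W := (2:ℝ) ^ (2 ^ b : ℕ)
    have hW : 1 ≤ W := one_le_pow₀ one_le_two
    obtain ⟨C0, B0, a1, a2, a3, a4, -⟩ := exists_approx γ (t := 1 / W) (by positivity)
      (by rw [div_le_one (by positivity)]; exact hW)
    have hs : 0 < Real.sqrt W := Real.sqrt_pos.mpr (by positivity)
    rw [Real.sqrt_div' _ (by positivity), Real.sqrt_one] at a3 a4
    refine ⟨C0, B0, Nat.one_le_two_pow, a1, a2, ?_, ?_⟩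
    · rwa [mul_one_div, div_le_iff₀ hs] at a3
    · rwa [le_div_iff₀ hs] at a4
  choose C0 B0 hC0 using hap
  set C : ℕ → ℤ := fun q => C0 (cls q)
  set B : ℕ → ℕ := fun q => B0 (cls q)
  have hin : ∀ q, ψ' q ≠ 0 → 0 < q ∧ P q ∧
      InCls ψ' C B (2 ^ cls q) (C0 (cls q)) (B0 (cls q)) q := by
    intro q hq
    have hP : P q := by by_contra hn; exact hq (by simp [hψ', hn])
    have hq0 : 0 < q := by have := hP.1; omega
    have hpos : 0 < ψ' q := lt_of_le_of_ne (hψ'0 q) (Ne.symm hq)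
    have hlogb : 1 ≤ Real.logb 2 (1 / ψ' q) := by
      rw [Real.le_logb_iff_rpow_le one_lt_two (by positivity), Real.rpow_one,
        le_div_iff₀ hpos]
      linarith [hψ'half q]
    have hk1 : 1 ≤ k q := Nat.le_floor (by push_cast; linarith)
    have hl1 : 2 ^ cls q ≤ k q := Nat.pow_log_le_self 2 (by omega)
    have hl2 : k q + 1 ≤ 2 * 2 ^ cls q := by
      have := Nat.lt_pow_succ_log_self one_lt_two (k q)
      rw [pow_succ] at this
      simp only [hcls]; omega
    have f1 : (2:ℝ) ^ (k q : ℝ) ≤ 1 / ψ' q :=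
      (Real.le_logb_iff_rpow_le one_lt_two (by positivity)).mp (Nat.floor_le (by linarith))
    have f2 : 1 / ψ' q < (2:ℝ) ^ ((k q : ℝ) + 1) :=
      (Real.logb_lt_iff_lt_rpow one_lt_two (by positivity)).mp (Nat.lt_floor_add_one _)
    rw [Real.rpow_natCast, le_div_iff₀ hpos] at f1
    rw [show ((k q : ℝ) + 1) = ((k q + 1 : ℕ) : ℝ) by push_cast; ring, Real.rpow_natCast,
      div_lt_iff₀ hpos] at f2
    refine ⟨hq0, hP, hq0, ?_, ?_, rfl, rfl⟩
    · rw [mul_comm]
      exact f2.le.trans (mul_le_mul_of_nonneg_right (pow_le_pow_right₀ one_le_two hl2) hpos.le)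
    · rw [mul_comm]
      exact (mul_le_mul_of_nonneg_right (pow_le_pow_right₀ one_le_two hl1) hpos.le).trans f1
  set f : ℕ → ℝ := fun q => ((2 ^ cls q : ℕ) : ℝ) ^ (-e) with hf
  have hf0 : ∀ q, 0 ≤ f q := fun q => Real.rpow_nonneg (Nat.cast_nonneg _) _
  have hf1 : ∀ q, f q ≤ 1 := fun q =>
    Real.rpow_le_one_of_one_le_of_nonpos (by exact_mod_cast Nat.one_le_two_pow) (by linarith)
  set T : ℕ → ℝ := fun q => f q * lam ψ' q with hT
  have hlam0 : ∀ q, 0 ≤ lam ψ' q := fun q => by have := hψ'0 q; unfold lam; positivity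
  have hT0 : ∀ q, 0 ≤ T q := fun q => mul_nonneg (hf0 q) (hlam0 q)
  have hT1 : ∀ q, T q ≤ 1 := fun q => by
    refine mul_le_one₀ (hf1 q) (hlam0 q) ?_
    rcases Nat.eq_zero_or_pos q with h | h
    · subst h; simp [lam]
    have hqR : (0:ℝ) < q := by exact_mod_cast h
    unfold lam
    rw [div_le_one hqR]
    calc (Nat.totient q : ℝ) * ψ' q ≤ q * 1 := mul_le_mul (by exact_mod_cast Nat.totient_le q)
          ((hψ'half q).trans (by norm_num)) (hψ'0 q) hqR.le
      _ = q := mul_one _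
  have hTdiv : ¬ Summable T := by
    intro hs
    have hS3 : Summable (fun q : ℕ => ((q:ℝ) ^ 3)⁻¹) :=
      Real.summable_nat_pow_inv.mpr (by norm_num)
    refine hdiv (Summable.of_norm_bounded_eventually_nat ((hs.mul_left 6).add hS3) ?_)
    refine eventually_atTop.mpr ⟨Q0 + 1, fun q hq => ?_⟩
    have hq0 : 0 < q := by omega
    have hqR : (0:ℝ) < q := by exact_mod_cast hq0
    have hlq : 0 ≤ Real.log q := Real.log_natCast_nonneg q
    set L := min (Real.log q) (max 0 (Real.log (1 / ψ q))) with hL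
    have hL0 : 0 ≤ L := le_min hlq (le_max_left _ _)
    have hLe : 1 ≤ (1 + L) ^ ε := Real.one_le_rpow (by linarith) hε.le
    have hq3 : (0:ℝ) ≤ ((q:ℝ) ^ 3)⁻¹ := by positivity
    have hφ : (Nat.totient q : ℝ) / q ≤ 1 := by
      rw [div_le_one hqR]; exact_mod_cast Nat.totient_le q
    rw [Real.norm_eq_abs, abs_of_nonneg (by have := hψ q; positivity)]
    have hTq := hT0 q
    by_cases hP : P q
    · have hpq : ψ' q = ψ q := if_pos hP
      have hpos : 0 < ψ q := pos_of_mul_pos_left (lt_of_lt_of_le one_pos hP.2) (by positivity)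
      obtain ⟨-, -, hI⟩ := hin q (by rw [hpq]; exact hpos.ne')
      set Λ := 2 ^ cls q
      have hΛ : (1:ℝ) ≤ Λ := by exact_mod_cast Nat.one_le_two_pow
      have hl : (Λ:ℝ) * Real.log 2 ≤ Real.log (1 / ψ q) := by
        rw [← Real.log_pow]
        refine Real.log_le_log (by positivity) ?_
        rw [le_div_iff₀ hpos, mul_comm, ← hpq]
        exact hI.hi
      have hq' : Real.log (1 / ψ q) ≤ 3 * Real.log q := by
        have h3 : Real.log ((q:ℝ) ^ 3) = 3 * Real.log q := by rw [Real.log_pow]; norm_num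
        rw [← h3]
        refine Real.log_le_log (by positivity) ?_
        rw [div_le_iff₀ hpos, mul_comm]; exact hP.2
      have h2 := Real.log_two_gt_d9
      have hL6 : (Λ:ℝ) / 6 ≤ 1 + L := by
        have h1 : (Λ:ℝ) / 6 ≤ L := by
          refine le_min ?_ (le_max_of_le_right ?_) <;> nlinarith
        linarith
      have hcmp : (1 + L) ^ (-ε) ≤ 6 * f q := by
        calc (1 + L) ^ (-ε) ≤ (1 + L) ^ (-e) := Real.rpow_le_rpow_of_exponent_le (by linarith)
              (neg_le_neg (min_le_left _ _))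
          _ ≤ ((Λ:ℝ) / 6) ^ (-e) :=
              Real.rpow_le_rpow_of_nonpos (by positivity) hL6 (by linarith)
          _ = (Λ:ℝ) ^ (-e) * (6:ℝ) ^ e := by
              rw [Real.div_rpow (by positivity) (by norm_num), Real.rpow_neg (by norm_num : (0:ℝ) ≤ 6),
                div_inv_eq_mul]
          _ ≤ f q * 6 := by
              refine mul_le_mul_of_nonneg_left ?_ (hf0 q)
              exact (Real.rpow_le_rpow_of_exponent_le (by norm_num) he1).trans_eq (Real.rpow_one _)
          _ = _ := mul_comm _ _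
      calc (Nat.totient q : ℝ) * ψ q / ((q:ℝ) * (1 + L) ^ ε)
          = lam ψ' q * (1 + L) ^ (-ε) := by
            rw [Real.rpow_neg (by linarith), lam, hpq]; field_simp
        _ ≤ lam ψ' q * (6 * f q) := mul_le_mul_of_nonneg_left hcmp (hlam0 q)
        _ = 6 * T q := by simp only [hT]; ring
        _ ≤ _ := le_add_of_nonneg_right hq3
    · have h3 : ψ q ≤ ((q:ℝ) ^ 3)⁻¹ := by
        simp only [P, not_and, not_le] at hP
        rw [← one_div, le_div_iff₀ (by positivity)]
        exact (hP (by omega)).le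
      calc (Nat.totient q : ℝ) * ψ q / ((q:ℝ) * (1 + L) ^ ε)
          = ψ q * ((Nat.totient q : ℝ) / q) / (1 + L) ^ ε := by ring
        _ ≤ ψ q * 1 / 1 := by
            have := hψ q
            gcongr
        _ ≤ _ := by linarith
  -- the blocks
  obtain ⟨K, hK0, hK⟩ := class_total he0 he1
  set g := ((2:ℝ) ^ (-(e / 4))) with hg
  have hg0 : 0 ≤ g := Real.rpow_nonneg two_pos.le _
  have hg1 : g < 1 := Real.rpow_lt_one_of_one_lt_of_neg one_lt_two (by linarith)
  set PP := (K + 1) * (((1 - g)⁻¹ + 2) ^ 2)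
  have hPP : 0 < PP := by
    have : 0 < (1 - g)⁻¹ := inv_pos.mpr (by linarith)
    positivity
  set ν := volume.restrict (Set.Ico (0:ℝ) 1) with hν
  have : IsFiniteMeasure ν := ⟨by rw [hν, Measure.restrict_apply_univ]; simp⟩
  have hνr : ∀ X, MeasurableSet X → ν.real X = volume.real (X ∩ Set.Ico 0 1) := fun X hX => by
    rw [hν, measureReal_def, measureReal_def, Measure.restrict_apply hX]
  have hblock : ∀ (Q : ℕ) (η : ℝ), 0 < η → ∃ S : Finset ℕ,
      (∀ q ∈ S, Q ≤ q ∧ 0 < q ∧ 0 ≤ ψ' q ∧ ψ' q ≤ 1/2 ∧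
        ψ' q / q * q.divisors.card ≤ η * lam ψ' q) ∧
      1 ≤ ∑ q ∈ S, f q * lam ψ' q ∧
      ∑ q ∈ S, ∑ r ∈ S, f q * f r *
        volume.real (ASet γ ψ' C B q ∩ ASet γ ψ' C B r ∩ Set.Ico 0 1) ≤ PP := by
    intro Q η hη
    obtain ⟨Q1, hQ1⟩ := tau_le_totient tau totTau (lt_min hη one_pos)
    obtain ⟨S, hS, hs1, hs2⟩ := exists_unit_block hT0 hT1 hTdiv (max Q Q1)
    have hne : ∀ q ∈ S, ψ' q ≠ 0 := fun q hq h0 => (hS q hq).2 (by simp [hT, lam, h0])
    have hτ : ∀ q ∈ S, ψ' q / q * q.divisors.card ≤ min η 1 * lam ψ' q := by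
      intro q hq
      have hle := (hS q hq).1
      have hq0 := (hin q (hne q hq)).1
      calc ψ' q / q * q.divisors.card ≤ ψ' q / q * (min η 1 * (Nat.totient q : ℝ)) :=
            mul_le_mul_of_nonneg_left (hQ1 q (by omega) hq0)
              (by have := hψ'0 q; positivity)
        _ = _ := by unfold lam; ring
    refine ⟨S, fun q hq => ⟨by have := (hS q hq).1; omega, (hin q (hne q hq)).1, hψ'0 q,
      hψ'half q, (hτ q hq).trans (mul_le_mul_of_nonneg_right (min_le_left _ _) (hlam0 q))⟩,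
      hs1, ?_⟩
    set a : ℕ → ℝ := fun b =>
      ((2 ^ b : ℕ) : ℝ) ^ (-(e / 4)) + ∑ q ∈ S.filter (fun q => cls q = b), T q with ha
    have ha0 : ∀ b, 0 < a b := fun b => add_pos_of_pos_of_nonneg
      (Real.rpow_pos_of_pos (by positivity) _) (sum_nonneg fun q _ => hT0 q)
    have hA : ∀ q, MeasurableSet (ASet γ ψ' C B q) :=
      fun q => (isOpen_aset _ _ _ _ _).measurableSet
    have hcl : ∀ b ∈ S.image cls, ∑ q ∈ S.filter (fun q => cls q = b),
        ∑ r ∈ S.filter (fun r => cls r = b),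
          f q * f r * ν.real (ASet γ ψ' C B q ∩ ASet γ ψ' C B r) ≤ K * a b ^ 2 := by
      intro b _
      set Sb := S.filter (fun q => cls q = b) with hSb
      have hfb : ∀ q ∈ Sb, f q = ((2 ^ b : ℕ) : ℝ) ^ (-e) := fun q hq => by
        simp only [hf, (mem_filter.mp hq).2]
      have h := hK γ ψ' C B (2 ^ b) (C0 b) (B0 b) Sb (hC0 b) (fun q hq => by
        obtain ⟨hqS, hqb⟩ := mem_filter.mp hq
        obtain ⟨-, -, hI⟩ := hin q (hne q hqS)
        rw [hqb] at hI
        exact ⟨hI, (hτ q hqS).trans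
          (mul_le_of_le_one_left (hlam0 q) (min_le_right _ _))⟩)
      have eT : ∑ q ∈ Sb, T q = ((2 ^ b : ℕ) : ℝ) ^ (-e) * ∑ q ∈ Sb, lam ψ' q := by
        rw [mul_sum]; exact sum_congr rfl fun q hq => by simp only [hT, hfb q hq]
      refine le_of_eq_of_le ?_ (h.trans_eq ?_)
      · rw [mul_sum]
        refine sum_congr rfl fun q hq => ?_
        rw [mul_sum]
        refine sum_congr rfl fun r hr => ?_
        rw [hνr _ ((hA q).inter (hA r)), hfb q hq, hfb r hr, sq]
      · simp only [ha, ← hSb, eT]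
    have hsum : ∑ b ∈ S.image cls, a b ≤ (1 - g)⁻¹ + 2 := by
      simp only [ha, sum_add_distrib]
      refine add_le_add ?_ ?_
      · calc ∑ b ∈ S.image cls, ((2 ^ b : ℕ) : ℝ) ^ (-(e / 4)) = ∑ b ∈ S.image cls, g ^ b := by
              refine sum_congr rfl fun b _ => ?_
              rw [hg, ← Real.rpow_natCast, ← Real.rpow_mul two_pos.le]
              push_cast
              rw [← Real.rpow_natCast, ← Real.rpow_mul two_pos.le]
              congr 1; ring
          _ ≤ _ := by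
              rw [← tsum_geometric_of_lt_one hg0 hg1]
              exact (summable_geometric_of_lt_one hg0 hg1).sum_le_tsum _ fun n _ =>
                pow_nonneg hg0 n
      · exact (sum_fiberwise_of_maps_to (fun q hq => mem_image_of_mem _ hq) _).trans_le hs2
    have hc := combine ν S cls _ hA f a ha0 hcl
    refine le_trans (le_of_eq_of_le ?_ hc) ?_
    · exact sum_congr rfl fun q _ => sum_congr rfl fun r _ => by
        rw [hνr _ ((hA q).inter (hA r))]
    · exact mul_le_mul (by linarith)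
        (pow_le_pow_left₀ (sum_nonneg fun b _ => (ha0 b).le) hsum 2) (sq_nonneg _) (by linarith)
  -- translate to the line
  have hsub : {x : ℝ | ¬ {q : ℕ | 0 < q ∧ ∃ a : ℤ, |(q:ℝ) * x - a - γ| < ψ q}.Infinite} ⊆
      ⋃ (m : ℤ), ⋃ (M : ℕ), (fun x : ℝ => x + (-(m:ℝ))) ⁻¹' Vale.P028EV.Missed γ ψ' C B M := by
    intro x hx
    rw [Set.mem_setOf_eq, Set.not_infinite] at hx
    obtain ⟨U, hU⟩ := hx.bddAbove
    refine Set.mem_iUnion₂.mpr ⟨⌊x⌋, U + 1, ?_, fun q hq hhit => ?_⟩
    · constructor <;> linarith [Int.floor_le x, Int.lt_floor_add_one x]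
    · have h1 := aset_add_int hhit ⌊x⌋
      rw [show x + -(⌊x⌋:ℝ) + (⌊x⌋:ℝ) = x by ring] at h1
      obtain ⟨a, -, ha⟩ := h1
      have := hU ⟨(show 0 < q by omega), a, ha.trans_le (hψ'le q)⟩
      omega
  refine measure_mono_null hsub (measure_iUnion_null fun m => measure_iUnion_null fun M => ?_)
  rw [measure_preimage_add_right]
  exact volume_missed_wt γ ψ' C B f PP hPP hf0 hblock M

end Vale.P028AS
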