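import Vale.Agent.P028.AS.Defs
import Vale.Agent.P028.EV.CaseA.Local
import Vale.Agent.P028.EV.CaseA.Euler
import Vale.Agent.P028.EV.Measure
import Vale.Agent.P031.Mertens

/-! # P028 all shifts: an elementary block sieve -/

open Finset Real
open Vale.P028EV

namespace Vale.P028AS

/-- signed sum over a family of sets -/
noncomputable def sgn (F : Finset (Finset ℕ)) (u : ℕ → ℝ) : ℝ :=
  ∑ t ∈ F, (-1:ℝ) ^ t.card * ∏ p ∈ t, u p

/-- sets of size at most `m` -/
def upTo (m : ℕ) (T : Finset ℕ) : Finset (Finset ℕ) := T.powerset.filter (fun t => t.card ≤ m)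

theorem upTo_zero (T : Finset ℕ) : upTo 0 T = {∅} := by
  ext t
  simp only [upTo, mem_filter, mem_powerset, Nat.le_zero, card_eq_zero, mem_singleton]
  exact ⟨fun h => h.2, fun h => ⟨h ▸ empty_subset _, h⟩⟩

theorem upTo_insert {p : ℕ} {T : Finset ℕ} (hp : p ∉ T) (m : ℕ) :
    upTo (m + 1) (insert p T) = upTo (m + 1) T ∪ (upTo m T).image (insert p) ∧
      Disjoint (upTo (m + 1) T) ((upTo m T).image (insert p)) := by
  refine ⟨?_, disjoint_left.mpr fun t ht ht' => ?_⟩
  · ext t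
    simp only [upTo, powerset_insert, filter_union, mem_union, mem_filter, mem_image, mem_powerset]
    constructor
    · rintro (h | ⟨⟨s, hs, rfl⟩, hc⟩)
      · exact Or.inl h
      · rw [card_insert_of_notMem fun h => hp (hs h)] at hc
        exact Or.inr ⟨s, ⟨hs, by omega⟩, rfl⟩
    · rintro (h | ⟨s, ⟨hs, hc⟩, rfl⟩)
      · exact Or.inl h
      · refine Or.inr ⟨⟨s, hs, rfl⟩, ?_⟩
        rw [card_insert_of_notMem fun h => hp (hs h)]
        omega
  · obtain ⟨s, -, rfl⟩ := mem_image.mp ht'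
    exact hp (mem_powerset.mp (mem_filter.mp ht).1 (mem_insert_self p s))

theorem sgn_insert {p : ℕ} {T : Finset ℕ} (hp : p ∉ T) (m : ℕ) (u : ℕ → ℝ) :
    sgn (upTo (m + 1) (insert p T)) u = sgn (upTo (m + 1) T) u - u p * sgn (upTo m T) u := by
  obtain ⟨h1, h2⟩ := upTo_insert hp m
  have hmem : ∀ s ∈ upTo m T, p ∉ s := fun s hs h =>
    hp (mem_powerset.mp (mem_filter.mp hs).1 h)
  rw [sgn, h1, sum_union h2, sum_image, sgn, sgn, mul_sum, sub_eq_add_neg, ← sum_neg_distrib]
  · refine congrArg₂ (· + ·) rfl (sum_congr rfl fun s hs => ?_)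
    rw [card_insert_of_notMem (hmem s hs), prod_insert (hmem s hs)]
    ring
  · intro a ha b hb h
    rw [← erase_insert (hmem a ha), h, erase_insert (hmem b hb)]

/-- Bonferroni: truncated inclusion-exclusion brackets the product. -/
theorem bonf (T : Finset ℕ) (u : ℕ → ℝ) :
    (∀ p ∈ T, 0 ≤ u p ∧ u p ≤ 1) →
      ∀ m : ℕ, 0 ≤ (-1:ℝ) ^ m * (sgn (upTo m T) u - ∏ p ∈ T, (1 - u p)) := by
  induction T using Finset.induction with
  | empty =>
    intro _ m
    have : upTo m ∅ = {∅} := by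
      ext t; simp [upTo]; intro h; simp [h]
    simp [sgn, this]
  | insert p T hp ih =>
    intro hu m
    have hu' : ∀ i ∈ T, 0 ≤ u i ∧ u i ≤ 1 := fun i hi => hu i (mem_insert_of_mem hi)
    rcases m with _ | m
    · rw [upTo_zero, sgn, sum_singleton]
      simp only [card_empty, pow_zero, prod_empty, mul_one, one_mul, sub_nonneg]
      exact prod_le_one (fun i hi => by linarith [(hu i hi).2]) fun i hi => by linarith [(hu i hi).1]
    · rw [sgn_insert hp, prod_insert hp]
      have h1 := ih hu' (m + 1)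
      have h2 := mul_nonneg (hu p (mem_insert_self _ _)).1 (ih hu' m)
      rw [pow_succ] at h1 ⊢
      linarith

theorem card_upTo (T : Finset ℕ) : ∀ m : ℕ, (upTo m T).card ≤ (T.card + 1) ^ m := by
  induction T using Finset.induction with
  | empty =>
    intro m
    simp only [upTo, powerset_empty, card_empty, zero_add, one_pow]
    exact (card_filter_le _ _).trans (card_singleton _).le
  | insert p T hp ih =>
    intro m
    rcases m with _ | m
    · simp [upTo_zero]
    · rw [(upTo_insert hp m).1, card_insert_of_notMem hp]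
      refine (card_union_le _ _).trans ?_
      calc (upTo (m + 1) T).card + ((upTo m T).image (insert p)).card
          ≤ (T.card + 1) ^ m * (T.card + 1) + (T.card + 1) ^ m :=
            add_le_add (ih (m + 1)) (card_image_le.trans (ih m))
        _ = (T.card + 1) ^ m * (T.card + 1 + 1) := by ring
        _ ≤ (T.card + 1 + 1) ^ m * (T.card + 1 + 1) :=
            Nat.mul_le_mul_right _ (Nat.pow_le_pow_left (by omega) m)
        _ = _ := (pow_succ _ _).symm

theorem sgn_powerset (T : Finset ℕ) (u : ℕ → ℝ) : sgn T.powerset u = ∏ p ∈ T, (1 - u p) :=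
  (CA.prod_expand T u).symm

theorem sgn_upTo_le (T : Finset ℕ) {u : ℕ → ℝ} (hu : ∀ p ∈ T, 0 ≤ u p) (m : ℕ) :
    sgn (upTo m T) u ≤ ∏ p ∈ T, (1 - u p) + (∏ p ∈ T, (1 + 2 * u p)) / 2 ^ m := by
  rw [← sgn_powerset, sgn, sgn, upTo,
    ← sum_filter_add_sum_filter_not T.powerset (fun t => t.card ≤ m)
      (fun t => (-1:ℝ) ^ t.card * ∏ p ∈ t, u p), add_assoc]
  refine le_add_of_nonneg_right ?_
  rw [prod_one_add, sum_div, ← neg_le_iff_add_nonneg', ← sum_neg_distrib]
  refine (sum_le_sum fun t ht => ?_).trans (sum_le_sum_of_subset_of_nonneg (filter_subset _ _)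
    fun t ht _ => ?_)
  · obtain ⟨ht, hc⟩ := mem_filter.mp ht
    have h0 : 0 ≤ ∏ p ∈ t, u p := prod_nonneg fun p hp => hu p (mem_powerset.mp ht hp)
    rw [prod_mul_distrib, prod_const, le_div_iff₀ (by positivity)]
    have h1 : (2:ℝ) ^ m ≤ 2 ^ t.card := pow_le_pow_right₀ one_le_two (not_le.mp hc).le
    have h2 := mul_le_mul_of_nonneg_right h1 h0
    have h3 : 0 ≤ (2:ℝ) ^ m * ∏ p ∈ t, u p := by positivity
    rcases neg_one_pow_eq_or ℝ t.card with h | h <;> rw [h] <;> linarith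
  · exact div_nonneg (prod_nonneg fun p hp => by
      have := hu p (mem_powerset.mp ht hp); positivity) (by positivity)

/-- products of two families with disjoint supports -/
theorem sgn_union {A B : Finset ℕ} (hAB : Disjoint A B) (F G : Finset (Finset ℕ))
    (hF : ∀ t ∈ F, t ⊆ A) (hG : ∀ t ∈ G, t ⊆ B) (u : ℕ → ℝ) :
    sgn ((F ×ˢ G).image (fun e => e.1 ∪ e.2)) u = sgn F u * sgn G u := by
  have hsplit : ∀ e ∈ F ×ˢ G, (e.1 ∪ e.2) ∩ A = e.1 ∧ (e.1 ∪ e.2) ∩ B = e.2 := by
    intro e he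
    obtain ⟨h1, h2⟩ := mem_product.mp he
    have a1 := hF _ h1
    have a2 := hG _ h2
    constructor <;> ext p <;> simp only [mem_inter, mem_union]
    · exact ⟨fun h => h.1.resolve_right fun h' => disjoint_left.mp hAB h.2 (a2 h'),
        fun h => ⟨Or.inl h, a1 h⟩⟩
    · exact ⟨fun h => h.1.resolve_left fun h' => disjoint_left.mp hAB (a1 h') h.2,
        fun h => ⟨Or.inr h, a2 h⟩⟩
  rw [sgn, sum_image, sgn, sgn, sum_mul_sum, ← sum_product']
  · refine sum_congr rfl fun e he => ?_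
    obtain ⟨h1, h2⟩ := mem_product.mp he
    have hd : Disjoint e.1 e.2 := hAB.mono (hF _ h1) (hG _ h2)
    rw [card_union_of_disjoint hd, prod_union hd, pow_add]
    ring
  · intro e he e' he' h
    simp only at h
    exact Prod.ext ((hsplit e he).1.symm.trans (h ▸ (hsplit e' he').1))
      ((hsplit e he).2.symm.trans (h ▸ (hsplit e' he').2))

theorem sub_facts {i J : ℕ} (hi : i + 1 ≤ J) : ∃ k, J - i = k + 1 ∧ J - (i + 1) = k :=
  ⟨J - (i + 1), by omega, rfl⟩

/-- An upper sieve with few terms. -/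
theorem block_sieve : ∃ K : ℝ, 1 ≤ K ∧ ∀ J v : ℕ, ∃ F : Finset (Finset ℕ),
    (∀ t ∈ F, t ⊆ CA.small (2 ^ 2 ^ J) v) ∧ F.card ≤ (2 ^ 2 ^ J) ^ 12 ∧
    (∀ u : ℕ → ℝ, (∀ p, 0 ≤ u p ∧ u p ≤ 1) →
      ∏ p ∈ CA.small (2 ^ 2 ^ J) v, (1 - u p) ≤ sgn F u) ∧
    sgn F (fun p => 1 / (p:ℝ)) ≤ K * PP (2 ^ 2 ^ J) v := by
  obtain ⟨C, hC, hm⟩ := Vale.Agent.P031.recipSum_sub_loglog
  set S : ℝ := log 2 + C / log 2
  have hS0 : 0 ≤ S := by positivity
  refine ⟨exp (exp (4 * S)), one_le_exp (by positivity), fun J v => ?_⟩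
  have main : ∀ i, i ≤ J → ∃ F : Finset (Finset ℕ),
      (∀ t ∈ F, t ⊆ CA.small (2 ^ 2 ^ i) v) ∧ F.card ≤ 2 ^ (2 ^ i * (4 * (J - i + 3))) ∧
      (∀ u : ℕ → ℝ, (∀ p, 0 ≤ u p ∧ u p ≤ 1) →
        ∏ p ∈ CA.small (2 ^ 2 ^ i) v, (1 - u p) ≤ sgn F u) ∧
      sgn F (fun p => 1 / (p:ℝ)) ≤ exp (exp (4 * S) / 4 ^ (J - i)) * PP (2 ^ 2 ^ i) v := by
    intro i
    induction i with
    | zero =>
      intro _
      refine ⟨(CA.small (2 ^ 2 ^ 0) v).powerset, fun t ht => mem_powerset.mp ht, ?_,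
        fun u _ => le_of_eq (sgn_powerset _ u).symm, ?_⟩
      · rw [card_powerset]
        refine Nat.pow_le_pow_right (by norm_num) ?_
        have h := CA.card_small_le 2 v
        have h2 : ((range (2 + 1)).filter Nat.Prime).card ≤ 3 :=
          (card_filter_le _ _).trans (card_range _).le
        show (CA.small (2 ^ 2 ^ 0) v).card ≤ _
        simp only [pow_zero, pow_one] at *
        omega
      · rw [sgn_powerset, PP]
        exact le_mul_of_one_le_left (CA.PP_pos _ v).le (one_le_exp (by positivity))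
    | succ i ih =>
      intro hi
      obtain ⟨F, hF1, hF2, hF3, hF4⟩ := ih (by omega)
      set N := 2 ^ 2 ^ i with hN
      set N' := 2 ^ 2 ^ (i + 1) with hN'
      have hNN : N' = N * N := by rw [hN, hN', ← pow_add]; congr 1; ring
      have hN2 : 2 ≤ N := by
        calc 2 = 2 ^ 1 := rfl
          _ ≤ _ := Nat.pow_le_pow_right (by norm_num) Nat.one_le_two_pow
      have hNle : N ≤ N' := by rw [hNN]; exact Nat.le_mul_of_pos_left N (by omega)
      set T := (CA.small N' v).filter (fun p => ¬ p ≤ N) with hT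
      have hsm : CA.small N v = (CA.small N' v).filter (fun p => p ≤ N) := by
        ext p
        simp only [CA.small, mem_filter]
        exact ⟨fun h => ⟨⟨h.1, h.2.trans hNle⟩, h.2⟩, fun h => ⟨h.1.1, h.2⟩⟩
      have hd : Disjoint (CA.small N v) T := by
        rw [hsm]; exact disjoint_filter_filter_not _ _ _
      set m := 2 * (J - i + 1) with hmdef
      have hsplit : ∀ u : ℕ → ℝ, ∏ p ∈ CA.small N' v, (1 - u p) =
          (∏ p ∈ CA.small N v, (1 - u p)) * ∏ p ∈ T, (1 - u p) := fun u => by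
        rw [hsm, hT, prod_filter_mul_prod_filter_not]
      have hGsub : ∀ t ∈ upTo m T, t ⊆ T := fun t ht => mem_powerset.mp (mem_filter.mp ht).1
      refine ⟨(F ×ˢ upTo m T).image (fun e => e.1 ∪ e.2), ?_, ?_, ?_, ?_⟩
      · intro t ht
        obtain ⟨e, he, rfl⟩ := mem_image.mp ht
        obtain ⟨h1, h2⟩ := mem_product.mp he
        refine union_subset ((hF1 _ h1).trans ?_) ((hGsub _ h2).trans (filter_subset _ _))
        rw [hsm]; exact filter_subset _ _
      · refine card_image_le.trans ?_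
        rw [card_product]
        have hTc : T.card + 1 ≤ N' := by
          have : T ⊆ Ioc N N' := fun p hp => by
            simp only [hT, CA.small, mem_filter, not_le] at hp
            exact mem_Ioc.mpr ⟨hp.2, hp.1.2⟩
          have := (card_le_card this).trans (Nat.card_Ioc N N').le
          omega
        calc F.card * (upTo m T).card
            ≤ 2 ^ (2 ^ i * (4 * (J - i + 3))) * N' ^ m :=
              Nat.mul_le_mul hF2 ((card_upTo T m).trans (Nat.pow_le_pow_left hTc m))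
          _ = 2 ^ (2 ^ i * (4 * (J - i + 3)) + 2 ^ (i + 1) * m) := by
              rw [hN', ← pow_mul, ← pow_add]
          _ ≤ _ := by
              refine Nat.pow_le_pow_right (by norm_num) (le_of_eq ?_)
              obtain ⟨k, rfl⟩ : ∃ k, J = i + 1 + k := ⟨J - (i + 1), by omega⟩
              rw [hmdef, show i + 1 + k - i = k + 1 by omega, show i + 1 + k - (i + 1) = k by omega]
              ring
      · intro u hu
        rw [sgn_union hd F _ hF1 hGsub, hsplit]
        have h1 := bonf T u (fun p _ => hu p) m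
        rw [hmdef, pow_mul, neg_one_sq, one_pow, one_mul] at h1
        have h0 : ∀ A : Finset ℕ, 0 ≤ ∏ p ∈ A, (1 - u p) := fun A =>
          prod_nonneg fun p _ => by linarith [(hu p).2]
        refine mul_le_mul (hF3 u hu) ?_ (h0 _) ((h0 _).trans (hF3 u hu))
        rw [hmdef]; linarith
      · set u : ℕ → ℝ := fun p => 1 / (p:ℝ) with hudef
        have hu0 : ∀ p, 0 ≤ u p ∧ u p ≤ 1 := fun p => by
          refine ⟨by simp only [hudef]; positivity, ?_⟩
          rcases Nat.eq_zero_or_pos p with h | h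
          · simp [hudef, h]
          · simp only [hudef]; rw [div_le_one (by exact_mod_cast h)]; exact_mod_cast h
        have hsum : ∑ p ∈ T, u p ≤ S := by
          have hsub : Nat.primesLE N ⊆ Nat.primesLE N' := fun p hp => by
            rw [Nat.mem_primesLE] at hp ⊢; exact ⟨hp.1.trans hNle, hp.2⟩
          have h := (abs_le.mp (hm N N' hN2 hNle)).2
          have h2 : ∑ p ∈ T, u p ≤
              Vale.Agent.P031.recipSum N' - Vale.Agent.P031.recipSum N := by
            simp only [Vale.Agent.P031.recipSum]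
            rw [← sum_sdiff hsub, add_sub_cancel_right]
            refine sum_le_sum_of_subset_of_nonneg (fun p hp => ?_) fun p _ _ => by positivity
            simp only [hT, CA.small, mem_filter, not_le] at hp
            rw [mem_sdiff, Nat.mem_primesLE, Nat.mem_primesLE]
            exact ⟨⟨hp.1.2, Nat.prime_of_mem_primeFactors hp.1.1⟩, fun h => by omega⟩
          have hl : log (log (N':ℝ)) - log (log (N:ℝ)) = log 2 := by
            have h2N : (2:ℝ) ≤ N := by exact_mod_cast hN2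
            have hlN : 0 < log (N:ℝ) := log_pos (by linarith)
            rw [hNN, Nat.cast_mul, log_mul (by linarith) (by linarith),
              show log (N:ℝ) + log N = 2 * log N by ring, log_mul two_ne_zero hlN.ne']
            ring
          have hCN : C / log N ≤ C / log 2 := div_le_div_of_nonneg_left hC.le (log_pos one_lt_two)
            (log_le_log two_pos (by exact_mod_cast hN2))
          simp only [S]
          linarith
        have hTp : ∀ p ∈ T, p.Prime := fun p hp =>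
          Nat.prime_of_mem_primeFactors (mem_filter.mp (mem_filter.mp hp).1).1
        set V := ∏ p ∈ T, (1 - u p)
        have hVlo : exp (-(2 * S)) ≤ V := by
          refine (exp_le_exp.mpr (show -(2 * S) ≤ ∑ p ∈ T, -(2 * u p) by
            rw [sum_neg_distrib, ← mul_sum]; linarith)).trans ?_
          rw [exp_sum]
          refine prod_le_prod (fun p _ => (exp_pos _).le) fun p hp => ?_
          have h1 := CA.inv_prime_le_half (hTp p hp)
          have h2 := add_one_le_exp (2 * u p)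
          have h3 : exp (-(2 * u p)) * exp (2 * u p) = 1 := by rw [← exp_add]; simp
          have := (hu0 p).1
          simp only [hudef] at *
          nlinarith [exp_pos (-(2 * (1 / (p:ℝ))))]
        have hW : ∏ p ∈ T, (1 + 2 * u p) ≤ exp (2 * S) := by
          refine le_trans (prod_le_prod (fun p _ => by have := (hu0 p).1; positivity)
            fun p _ => le_of_le_of_eq (le_of_le_of_eq (by linarith [add_one_le_exp (2 * u p)])
              rfl) (rfl : exp (2 * u p) = _)) ?_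
          rw [← exp_sum, ← mul_sum]
          exact exp_le_exp.mpr (by linarith)
        have hA : sgn (upTo m T) u ≤ exp (exp (4 * S) / 4 ^ (J - i + 1)) * V := by
          refine (sgn_upTo_le T (fun p _ => (hu0 p).1) m).trans ?_
          have e : (2:ℝ) ^ m = 4 ^ (J - i + 1) := by rw [hmdef, pow_mul]; norm_num
          rw [e]
          have h1 : ∏ p ∈ T, (1 + 2 * u p) ≤ exp (4 * S) * V := by
            refine hW.trans ?_
            calc exp (2 * S) = exp (4 * S) * exp (-(2 * S)) := by rw [← exp_add]; ring_nf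
              _ ≤ _ := mul_le_mul_of_nonneg_left hVlo (exp_pos _).le
          have h2 := div_le_div_of_nonneg_right h1
            (show (0:ℝ) ≤ 4 ^ (J - i + 1) by positivity)
          have h3 : 0 ≤ V := (exp_pos _).le.trans hVlo
          have h4 := mul_le_mul_of_nonneg_right (add_one_le_exp (exp (4 * S) / 4 ^ (J - i + 1))) h3
          rw [mul_div_right_comm] at h2
          linarith
        have hPPN : PP N' v = PP N v * V := by
          have := hsplit u
          simpa [PP, CA.small, hudef, V] using this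
        rw [sgn_union hd F _ hF1 hGsub, hPPN]
        have hA0 : 0 ≤ sgn (upTo m T) u := by
          have h1 := bonf T u (fun p _ => hu0 p) m
          rw [hmdef, pow_mul, neg_one_sq, one_pow, one_mul] at h1
          rw [hmdef]
          linarith [prod_nonneg (s := T) (f := fun p => 1 - u p) fun p _ => by linarith [(hu0 p).2]]
        refine (mul_le_mul hF4 hA hA0 (by have := CA.PP_pos N v; positivity)).trans ?_
        rw [show exp (exp (4 * S) / 4 ^ (J - i)) * PP N v *
          (exp (exp (4 * S) / 4 ^ (J - i + 1)) * V) =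
          exp (exp (4 * S) / 4 ^ (J - i) + exp (4 * S) / 4 ^ (J - i + 1)) * (PP N v * V) by
            rw [exp_add]; ring]
        refine mul_le_mul_of_nonneg_right (exp_le_exp.mpr ?_)
          (mul_nonneg (CA.PP_pos N v).le ((exp_pos _).le.trans hVlo))
        obtain ⟨k, hk, hk'⟩ := sub_facts hi
        rw [hk', hk, pow_succ _ (k + 1), pow_succ _ k]
        have : 0 < exp (4 * S) / (4:ℝ) ^ k := by positivity
        simp only [← div_div]
        linarith
  obtain ⟨F, h1, h2, h3, h4⟩ := main J le_rfl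
  refine ⟨F, h1, h2.trans (le_of_eq ?_), h3, h4.trans (le_of_eq ?_)⟩
  · rw [← pow_mul]; congr 1; simp
  · simp

open scoped Classical in
/-- the sum over `n` of the pairs sieved up to `2 ^ 2 ^ J` -/
theorem sum_Nz_le : ∃ K : ℝ, 1 ≤ K ∧ ∀ (γ : ℝ) (ψ : ℕ → ℝ) (C : ℕ → ℤ) (B : ℕ → ℕ) (J q r : ℕ),
    0 < q → 0 < r → 0 ≤ ψ q → ((2:ℝ) ^ 2 ^ J) ^ 26 ≤ DD ψ q r →
    ∑ n ∈ nset γ ψ q r, (Nz (2 ^ 2 ^ J) C B q r n : ℝ) ≤
      K * Nat.gcd q r * DD ψ q r * (PP (2 ^ 2 ^ J) q * PP (2 ^ 2 ^ J) r) := by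
  obtain ⟨K, hK, hsieve⟩ := block_sieve
  refine ⟨4 * K ^ 2 + 1, by nlinarith, fun γ ψ C B J q r hq hr hψ hD => ?_⟩
  set z := 2 ^ 2 ^ J with hz
  obtain ⟨FA, hA1, hA2, hA3, hA4⟩ := hsieve J q
  obtain ⟨FB, hB1, hB2, hB3, hB4⟩ := hsieve J r
  have hgx := gcd_mul_xx q r
  have hgy := gcd_mul_yy q r
  set g := Nat.gcd q r with hgdef
  set x := xx q r with hxdef
  set y := yy q r with hydef
  have hg : 0 < g := Nat.gcd_pos_of_pos_left _ hq
  have hx : 0 < x := xx_pos r hq
  have hy : 0 < y := Nat.pos_of_mul_pos_left (hgy.symm ▸ hr)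
  have hxy : Nat.Coprime x y := Nat.coprime_div_gcd_div_gcd hg
  have hxR : (x:ℤ) ≠ 0 := by exact_mod_cast hx.ne'
  have hcls : ∀ (Cv : ℤ) (Bv v : ℕ), ∃ c : ℕ → ℤ, ∀ p ∈ v.primeFactors, ∀ a : ℤ,
      Ok Cv Bv p a ↔ ¬ (p:ℤ) ∣ a - c p := by
    intro Cv Bv v
    choose! c hc using fun p (hp : p ∈ v.primeFactors) =>
      exists_class Cv (B := Bv) (Nat.prime_of_mem_primeFactors hp)
    exact ⟨c, fun p hp a => hc p hp a⟩
  obtain ⟨cA, hcA⟩ := hcls (C q) (B q) q
  obtain ⟨cB, hcB⟩ := hcls (C r) (B r) r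
  have hcrt : ∀ (F : Finset (Finset ℕ)) (v : ℕ) (c : ℕ → ℤ), (∀ t ∈ F, t ⊆ CA.small z v) →
      ∃ α : Finset ℕ → ℤ, ∀ t ∈ F, ∀ a : ℤ,
        (∏ p ∈ t, if (p:ℤ) ∣ a - c p then (1:ℝ) else 0) =
          if ((∏ p ∈ t, p : ℕ) : ℤ) ∣ a - α t then 1 else 0 := by
    intro F v c hF
    choose! α hα using fun t (ht : t ∈ F) => CA.exists_crt t (fun p hp =>
      Nat.prime_of_mem_primeFactors (filter_subset _ _ (hF t ht hp))) c
    exact ⟨α, fun t ht a => by rw [prod_boole]; exact if_congr (hα t ht a) rfl rfl⟩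
  obtain ⟨αA, hαA⟩ := hcrt FA q cA hA1
  obtain ⟨αB, hαB⟩ := hcrt FB r cB hB1
  -- one `n`
  have hone : ∀ n : ℤ, (Nz z C B q r n : ℝ) ≤ ∑ t ∈ FA, ∑ t' ∈ FB,
      (-1 : ℝ) ^ t.card * (-1 : ℝ) ^ t'.card *
        (((range (g * x)).filter (fun a : ℕ => ((∏ p ∈ t, p : ℕ):ℤ) ∣ (a:ℤ) - αA t ∧
          ((x * ∏ p ∈ t', p : ℕ):ℤ) ∣ (y:ℤ) * a - n - (x:ℤ) * αB t')).card : ℝ) := by
    intro n
    have hN : (Nz z C B q r n : ℝ) = ∑ a ∈ range (g * x),
        if SelZ z (C q) (B q) q a ∧ ∃ b : ℤ, (y:ℤ) * a - (x:ℤ) * b = n ∧ SelZ z (C r) (B r) r b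
          then (1:ℝ) else 0 := by
      simp only [Nz, ← hxdef, ← hydef, hgx]
      rw [sum_boole]
    simp only [natCast_card_filter, mul_sum]
    rw [hN, sum_congr rfl fun t _ => sum_comm, sum_comm]
    refine sum_le_sum fun a _ => ?_
    by_cases hsol : (x:ℤ) ∣ (y:ℤ) * a - n
    · obtain ⟨b, hb⟩ := hsol
      have hx' : ∀ t' : Finset ℕ, ((x * ∏ p ∈ t', p : ℕ):ℤ) ∣ (y:ℤ) * a - n - (x:ℤ) * αB t' ↔
          ((∏ p ∈ t', p : ℕ):ℤ) ∣ b - αB t' := by
        intro t'
        rw [Nat.cast_mul, hb, ← mul_sub]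
        exact mul_dvd_mul_iff_left hxR
      set uA : ℕ → ℝ := fun p => if (p:ℤ) ∣ (a:ℤ) - cA p then 1 else 0
      set uB : ℕ → ℝ := fun p => if (p:ℤ) ∣ b - cB p then 1 else 0
      have hEq : ∑ t ∈ FA, ∑ t' ∈ FB, (-1 : ℝ) ^ t.card * (-1 : ℝ) ^ t'.card *
          (if ((∏ p ∈ t, p : ℕ):ℤ) ∣ (a:ℤ) - αA t ∧
            ((x * ∏ p ∈ t', p : ℕ):ℤ) ∣ (y:ℤ) * a - n - (x:ℤ) * αB t' then (1:ℝ) else 0)
          = sgn FA uA * sgn FB uB := by
        rw [sgn, sgn, sum_mul_sum]
        refine sum_congr rfl fun t ht => sum_congr rfl fun t' ht' => ?_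
        simp only [uA, uB]
        rw [hαA t ht, hαB t' ht', ite_and]
        simp only [hx']
        split_ifs <;> ring
      rw [hEq]
      have h01 : ∀ (b : ℤ) (c : ℕ → ℤ) (p : ℕ), (0:ℝ) ≤ (if (p:ℤ) ∣ b - c p then 1 else 0) ∧
          (if (p:ℤ) ∣ b - c p then (1:ℝ) else 0) ≤ 1 := fun b c p => by split_ifs <;> norm_num
      refine le_trans ?_ (mul_le_mul (hA3 uA (fun p => h01 _ _ p)) (hB3 uB (fun p => h01 _ _ p))
        (prod_nonneg fun p _ => by linarith [(h01 b cB p).2])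
        ((prod_nonneg fun p _ => by linarith [(h01 a cA p).2]).trans (hA3 uA (fun p => h01 _ _ p))))
      split_ifs with hsel
      · obtain ⟨h1, b', hb', h2⟩ := hsel
        have hbb : b' = b := mul_left_cancel₀ hxR (by linarith)
        rw [hbb] at h2
        rw [prod_eq_one fun p hp => by
            obtain ⟨hp1, hp2⟩ := mem_filter.mp hp
            simp only [uA]
            rw [if_neg ((hcA p hp1 a).mp (h1 p hp1 hp2))]; ring,
          prod_eq_one fun p hp => by
            obtain ⟨hp1, hp2⟩ := mem_filter.mp hp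
            simp only [uB]
            rw [if_neg ((hcB p hp1 b).mp (h2 p hp1 hp2))]; ring, one_mul]
      · exact mul_nonneg (prod_nonneg fun p _ => by linarith [(h01 a cA p).2])
          (prod_nonneg fun p _ => by linarith [(h01 b cB p).2])
    · rw [if_neg fun hsel => hsol ?_]
      · refine le_of_eq (sum_eq_zero fun t _ => sum_eq_zero fun t' _ => ?_).symm
        rw [if_neg fun hd => hsol ?_, mul_zero]
        have h1 := (dvd_mul_right (x:ℤ) ((∏ p ∈ t', p : ℕ):ℤ)).trans (by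
          rw [← Nat.cast_mul]; exact hd.2 :
            (x:ℤ) * ((∏ p ∈ t', p : ℕ):ℤ) ∣ (y:ℤ) * a - n - (x:ℤ) * αB t')
        simpa using dvd_add h1 (dvd_mul_right (x:ℤ) (αB t'))
      · obtain ⟨-, b', hb', -⟩ := hsel
        exact ⟨b', by linarith⟩
  have hD0 : 0 ≤ DD ψ q r := mul_nonneg hψ (Nat.cast_nonneg _)
  refine (sum_le_sum fun n _ => hone n).trans ?_
  rw [sum_comm]
  set L := 2 * DD ψ q r
  set cm := (mm q r : ℝ) * γ
  set w : Finset ℕ → ℝ := fun t => (-1 : ℝ) ^ t.card / ((∏ p ∈ t, p : ℕ) : ℝ)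
  have hterm : ∀ t ∈ FA, ∀ t' ∈ FB,
      ∑ n ∈ nset γ ψ q r, (-1 : ℝ) ^ t.card * (-1 : ℝ) ^ t'.card *
          (((range (g * x)).filter (fun a : ℕ => ((∏ p ∈ t, p : ℕ):ℤ) ∣ (a:ℤ) - αA t ∧
            ((x * ∏ p ∈ t', p : ℕ):ℤ) ∣ (y:ℤ) * a - n - (x:ℤ) * αB t')).card : ℝ) ≤
        w t * w t' * (g * (2 * L)) + g := by
    intro t ht t' ht'
    rw [← mul_sum]
    have hcp := CA.card_pairs hg hx hy hxy
      (hgx ▸ CA.prod_small_dvd z q (hA1 t ht))
      (hgy ▸ CA.prod_small_dvd z r (hB1 t' ht')) (αA t) (αB t') cm L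
      (mul_nonneg zero_le_two hD0)
    have hns : nset γ ψ q r =
        (Icc ⌊cm - L⌋ ⌈cm + L⌉).filter (fun n : ℤ => |(n:ℝ) - cm| < L) := rfl
    rw [← hns] at hcp
    rw [abs_le] at hcp
    simp only [w]
    rcases neg_one_pow_eq_or ℝ t.card with h1 | h1 <;>
      rcases neg_one_pow_eq_or ℝ t'.card with h2 | h2 <;> rw [h1, h2] <;>
      simp only [div_eq_mul_inv, one_mul, neg_mul, mul_neg, neg_neg, mul_inv] at hcp ⊢ <;>
      linarith [hcp.1, hcp.2]
  have hw : ∀ F : Finset (Finset ℕ), ∑ t ∈ F, w t = sgn F (fun p => 1 / (p:ℝ)) := fun F => by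
    refine sum_congr rfl fun t _ => ?_
    simp only [w]
    rw [div_eq_mul_inv]
    push_cast
    simp [one_div, prod_inv_distrib]
  calc ∑ t ∈ FA, ∑ n ∈ nset γ ψ q r, ∑ t' ∈ FB, _
      = ∑ t ∈ FA, ∑ t' ∈ FB, ∑ n ∈ nset γ ψ q r, _ := sum_congr rfl fun t _ => sum_comm
    _ ≤ ∑ t ∈ FA, ∑ t' ∈ FB, (w t * w t' * (g * (2 * L)) + g) :=
        sum_le_sum fun t ht => sum_le_sum fun t' ht' => hterm t ht t' ht'
    _ = sgn FA (fun p => 1 / (p:ℝ)) * sgn FB (fun p => 1 / (p:ℝ)) * (g * (2 * L)) +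
        (FA.card : ℝ) * (FB.card : ℝ) * g := by
        rw [← hw, ← hw, sum_mul_sum, sum_mul]
        simp only [sum_add_distrib, sum_mul, sum_const, nsmul_eq_mul]
        ring
    _ ≤ _ := by
        have hPq := CA.PP_pos z q
        have hPr := CA.PP_pos z r
        have hz1 : 1 ≤ z := Nat.one_le_two_pow
        have hu : ∀ p : ℕ, (0:ℝ) ≤ 1 / p ∧ 1 / (p:ℝ) ≤ 1 := fun p => by
          refine ⟨by positivity, ?_⟩
          rcases Nat.eq_zero_or_pos p with h | h
          · simp [h]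
          · rw [div_le_one (by exact_mod_cast h)]; exact_mod_cast h
        have hn : ∀ {F : Finset (Finset ℕ)} {v : ℕ},
            (∀ u : ℕ → ℝ, (∀ p, 0 ≤ u p ∧ u p ≤ 1) →
              ∏ p ∈ CA.small z v, (1 - u p) ≤ sgn F u) → 0 ≤ sgn F (fun p => 1 / (p:ℝ)) :=
          fun h => (prod_nonneg fun p _ => by linarith [(hu p).2]).trans (h _ hu)
        have h1 := mul_le_mul hA4 hB4 (hn hB3) (by positivity)
        have hzR : (0:ℝ) < z := by exact_mod_cast hz1
        have hPP : 1 / (z:ℝ) * (1 / (z:ℝ)) ≤ PP z q * PP z r :=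
          mul_le_mul (CA.PP_ge z q hz1) (CA.PP_ge z r hz1) (by positivity) hPq.le
        have hcard : (FA.card : ℝ) * FB.card ≤ DD ψ q r * (PP z q * PP z r) := by
          have a1 : (FA.card : ℝ) ≤ (z:ℝ) ^ 12 := by exact_mod_cast hA2
          have a2 : (FB.card : ℝ) ≤ (z:ℝ) ^ 12 := by exact_mod_cast hB2
          have a3 : (z:ℝ) ^ 26 ≤ DD ψ q r := by rw [hz]; push_cast; exact hD
          calc (FA.card : ℝ) * FB.card ≤ (z:ℝ) ^ 12 * (z:ℝ) ^ 12 :=
                mul_le_mul a1 a2 (Nat.cast_nonneg _) (by positivity)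
            _ = (z:ℝ) ^ 26 * (1 / (z:ℝ) * (1 / (z:ℝ))) := by field_simp
            _ ≤ _ := mul_le_mul a3 hPP (by positivity) hD0
        have h2 := mul_le_mul_of_nonneg_right h1 (show (0:ℝ) ≤ g * (2 * L) by positivity)
        have h3 := mul_le_mul_of_nonneg_right hcard (Nat.cast_nonneg (α := ℝ) g)
        simp only [L] at h2 ⊢
        linarith

end Vale.P028AS
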