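import Vale.Agent.P028.AS.Local
import Vale.Agent.P028.AS.Sieve
import Vale.Agent.P028.AS.Hits
import Vale.Agent.P028.Pair

/-! # P028 all shifts: the overlap of a pair in one class -/

open Finset Real
open Vale.P028EV

namespace Vale.P028AS

theorem pair_facts {ψ : ℕ → ℝ} {C : ℕ → ℤ} {B : ℕ → ℕ} {Λ : ℕ} {C0 : ℤ} {B0 q r : ℕ}
    (iq : InCls ψ C B Λ C0 B0 q) (ir : InCls ψ C B Λ C0 B0 r) (hle : ψ r / r ≤ ψ q / q) :
    0 < ψ q ∧ 0 < ψ r ∧ 0 < DD ψ q r ∧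
      (xx q r : ℝ) ≤ DD ψ q r * (2:ℝ) ^ (2 * Λ) ∧ (yy q r : ℝ) ≤ DD ψ q r * (2:ℝ) ^ (2 * Λ) ∧
      DD ψ q r * (2:ℝ) ^ Λ ≤ (yy q r : ℝ) ∧
      (Nat.gcd q r : ℝ) * (ψ r / r) = ψ q * ψ r / DD ψ q r := by
  have hqR : (0:ℝ) < q := by exact_mod_cast iq.pos
  have hrR : (0:ℝ) < r := by exact_mod_cast ir.pos
  have hw : (0:ℝ) < (2:ℝ) ^ (2 * Λ) := by positivity
  have hψq : 0 < ψ q := pos_of_mul_pos_left (lt_of_lt_of_le one_pos iq.lo) hw.le
  have hψr : 0 < ψ r := pos_of_mul_pos_left (lt_of_lt_of_le one_pos ir.lo) hw.le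
  have hgR : (0:ℝ) < Nat.gcd q r := by exact_mod_cast Nat.gcd_pos_of_pos_left r iq.pos
  have eq1 : (Nat.gcd q r : ℝ) * xx q r = q := by exact_mod_cast gcd_mul_xx q r
  have eq2 : (Nat.gcd q r : ℝ) * yy q r = r := by exact_mod_cast gcd_mul_yy q r
  have hy : (0:ℝ) < yy q r := by
    rcases (Nat.cast_nonneg (α := ℝ) (yy q r)).eq_or_lt with h | h
    · rw [← h, mul_zero] at eq2; linarith
    · exact h
  have hD : 0 < DD ψ q r := mul_pos hψq hy
  have hle' : (xx q r : ℝ) * ψ r ≤ DD ψ q r := by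
    rw [div_le_div_iff₀ hrR hqR] at hle
    refine le_of_mul_le_mul_left ?_ hgR
    calc (Nat.gcd q r : ℝ) * ((xx q r : ℝ) * ψ r) = ψ r * q := by rw [← mul_assoc, eq1, mul_comm]
      _ ≤ ψ q * r := hle
      _ = _ := by rw [DD, ← eq2]; ring
  refine ⟨hψq, hψr, hD, ?_, ?_, ?_, ?_⟩
  · calc (xx q r : ℝ) = xx q r * 1 := (mul_one _).symm
      _ ≤ xx q r * (ψ r * (2:ℝ) ^ (2 * Λ)) := mul_le_mul_of_nonneg_left ir.lo (Nat.cast_nonneg _)
      _ = xx q r * ψ r * (2:ℝ) ^ (2 * Λ) := (mul_assoc _ _ _).symm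
      _ ≤ _ := mul_le_mul_of_nonneg_right hle' hw.le
  · calc (yy q r : ℝ) = yy q r * 1 := (mul_one _).symm
      _ ≤ yy q r * (ψ q * (2:ℝ) ^ (2 * Λ)) := mul_le_mul_of_nonneg_left iq.lo hy.le
      _ = _ := by rw [DD]; ring
  · calc DD ψ q r * (2:ℝ) ^ Λ = yy q r * (ψ q * (2:ℝ) ^ Λ) := by rw [DD]; ring
      _ ≤ yy q r * 1 := mul_le_mul_of_nonneg_left iq.hi hy.le
      _ = _ := mul_one _
  · rw [← eq2, DD]; field_simp

/-- the size of `x y B |k|` -/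
theorem log_RR_le {γ : ℝ} {ψ : ℕ → ℝ} {C : ℕ → ℤ} {B : ℕ → ℕ} {Λ : ℕ} {C0 : ℤ} {B0 q r : ℕ}
    (hc : Cls γ Λ C0 B0) (iq : InCls ψ C B Λ C0 B0 q) (ir : InCls ψ C B Λ C0 B0 r)
    (hle : ψ r / r ≤ ψ q / q) {n : ℤ} (hn : n ∈ nset γ ψ q r) :
    log (RR C0 B0 q r n : ℝ) ≤ 10 + 3 * log (max (DD ψ q r) 1) + 7 * Λ := by
  obtain ⟨-, -, hD, hx, hy, -, -⟩ := pair_facts iq ir hle
  set D := max (DD ψ q r) 1
  have hD1 : 1 ≤ D := le_max_right _ _
  set W := (2:ℝ) ^ Λ with hW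
  have hW1 : 1 ≤ W := one_le_pow₀ one_le_two
  have hW2 : (2:ℝ) ^ (2 * Λ) = W ^ 2 := by rw [hW, ← pow_mul]; ring_nf
  rw [hW2] at hx hy
  have hs1 : 1 ≤ Real.sqrt W := Real.one_le_sqrt.mpr hW1
  have hsW : Real.sqrt W ≤ W := Real.sqrt_le_iff.mpr ⟨by linarith, by nlinarith⟩
  have hB : (B0:ℝ) ≤ 2 * W := hc.B_le.trans (by linarith)
  have hd : |(B0:ℝ) * γ - C0| ≤ 1 := by nlinarith [hc.eps_le, abs_nonneg ((B0:ℝ) * γ - C0)]
  have hx' : (xx q r : ℝ) ≤ D * W ^ 2 :=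
    hx.trans (mul_le_mul_of_nonneg_right (le_max_left _ _) (by positivity))
  have hy' : (yy q r : ℝ) ≤ D * W ^ 2 :=
    hy.trans (mul_le_mul_of_nonneg_right (le_max_left _ _) (by positivity))
  have hn2 : |(n:ℝ) - (mm q r : ℝ) * γ| < 2 * D := by
    have := (mem_filter.mp hn).2
    linarith [le_max_left (DD ψ q r) 1]
  have hk : |(kk C0 B0 q r n : ℝ)| ≤ 5 * D * W ^ 2 := by
    have e : (kk C0 B0 q r n : ℝ) =
        ((n:ℝ) - (mm q r : ℝ) * γ) * B0 + (mm q r : ℝ) * ((B0:ℝ) * γ - C0) := by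
      unfold kk; push_cast; ring
    have hm : |(mm q r : ℝ)| ≤ D * W ^ 2 := by
      unfold mm; push_cast
      rw [abs_le]
      constructor <;> linarith [Nat.cast_nonneg (α := ℝ) (xx q r), Nat.cast_nonneg (α := ℝ) (yy q r)]
    rw [e]
    refine (abs_add_le _ _).trans ?_
    rw [abs_mul, abs_mul, Nat.abs_cast]
    have h1 := mul_le_mul hn2.le hB (Nat.cast_nonneg _) (by linarith)
    have h2 := mul_le_mul hm hd (abs_nonneg _) (by positivity)
    have h3 : D * W ≤ D * W ^ 2 := mul_le_mul_of_nonneg_left (by nlinarith) (by linarith)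
    linarith
  rcases Nat.eq_zero_or_pos (RR C0 B0 q r n) with h0 | h0
  · rw [h0, Nat.cast_zero, log_zero]
    have := log_nonneg hD1
    positivity
  have hR : (RR C0 B0 q r n : ℝ) ≤ 10 * D ^ 3 * W ^ 7 := by
    rw [RR]; push_cast
    rw [Nat.cast_natAbs, Int.cast_abs]
    calc (xx q r : ℝ) * yy q r * B0 * |(kk C0 B0 q r n : ℝ)|
        ≤ D * W ^ 2 * (D * W ^ 2) * (2 * W) * (5 * D * W ^ 2) := by gcongr
      _ = _ := by ring
  refine (log_le_log (by exact_mod_cast h0) hR).trans ?_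
  rw [log_mul (by positivity) (by positivity), log_mul (by norm_num) (by positivity), log_pow,
    log_pow, hW, log_pow]
  have h10 := log_le_self (show (0:ℝ) ≤ 10 by norm_num)
  have h2 := log_le_self (show (0:ℝ) ≤ 2 by norm_num)
  have hl2 : (Λ:ℝ) * log 2 ≤ Λ * 1 := mul_le_mul_of_nonneg_left (by linarith [log_two_lt_d9]) (Nat.cast_nonneg _)
  push_cast
  linarith

open scoped Classical in
theorem card_nset (γ : ℝ) {ψ : ℕ → ℝ} {q r : ℕ} (hD : 0 ≤ DD ψ q r) :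
    ((nset γ ψ q r).card : ℝ) ≤ 4 * DD ψ q r + 1 := by
  refine (Vale.P028.card_spaced (u := (mm q r : ℝ) * γ - 2 * DD ψ q r) (l := 4 * DD ψ q r) one_pos
    (by linarith) (fun n hn => ?_) (fun a _ b _ => by simp)).trans (by simp)
  have h := abs_lt.mp (mem_filter.mp hn).2
  constructor <;> linarith

/-- the overlap for large `D` -/
theorem ov_large {c : ℝ} (hc0 : 0 < c) (hc1 : c ≤ 1) :
    ∃ K : ℝ, 0 ≤ K ∧ ∀ (γ : ℝ) (ψ : ℕ → ℝ) (C : ℕ → ℤ) (B : ℕ → ℕ) (Λ : ℕ) (C0 : ℤ) (B0 q r : ℕ),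
      Cls γ Λ C0 B0 → InCls ψ C B Λ C0 B0 q → InCls ψ C B Λ C0 B0 r → q ≠ r →
      ψ r / r ≤ ψ q / q → 2 ^ 64 * (Λ:ℝ) ^ c ≤ DD ψ q r →
      ov γ ψ C B q r ≤ K * (lam ψ q * lam ψ r) := by
  classical
  obtain ⟨K1, hK1, hPL⟩ := PL_lower
  obtain ⟨K2, hK2, hNz⟩ := sum_Nz_le
  set K' := K1 * (1 + 64 * (2 + 1 / c))
  refine ⟨2 * K' ^ 2 * K2, by positivity, fun γ ψ C B Λ C0 B0 q r hc iq ir hne hle hbig => ?_⟩
  obtain ⟨hψq, hψr, hD, -, -, -, hg⟩ := pair_facts iq ir hle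
  have hΛ : (1:ℝ) ≤ Λ := by exact_mod_cast hc.one_le
  set D := DD ψ q r with hDdef
  have hΛc : 1 ≤ (Λ:ℝ) ^ c := Real.one_le_rpow hΛ hc0.le
  have hD64 : (2:ℝ) ^ (64:ℕ) ≤ D := (le_mul_of_one_le_right (by positivity) hΛc).trans hbig
  have hD1 : 1 ≤ D := le_trans (one_le_pow₀ one_le_two) hD64
  have hlD : 0 ≤ log D := log_nonneg hD1
  have hl2 : (64:ℝ) ≤ logb 2 D := by
    have := logb_le_logb_of_le one_lt_two (by positivity) hD64
    rwa [logb_pow, logb_self_eq_one one_lt_two, mul_one] at this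
  set l := ⌊logb 2 D / 32⌋₊ with hl
  have hl1 : 1 ≤ l := Nat.le_floor (by rw [le_div_iff₀ (by norm_num)]; push_cast; linarith)
  set J := Nat.log 2 l with hJ
  have hJ1 : 2 ^ J ≤ l := Nat.pow_log_le_self 2 (by omega)
  have hJ2 : l + 1 ≤ 2 ^ (J + 1) := Nat.lt_pow_succ_log_self one_lt_two l
  set z : ℕ := 2 ^ 2 ^ J with hz
  have hlogz : log (z:ℝ) = (2:ℝ) ^ J * log 2 := by rw [hz]; push_cast; rw [log_pow]; push_cast; ring
  have hz2 : 2 ≤ z := by
    calc 2 = 2 ^ 1 := rfl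
      _ ≤ _ := Nat.pow_le_pow_right (by norm_num) Nat.one_le_two_pow
  have hzD : ((2:ℝ) ^ 2 ^ J) ^ 26 ≤ D := by
    rw [← pow_mul, ← rpow_natCast, ← le_logb_iff_rpow_le one_lt_two hD]
    have h1 : (l:ℝ) ≤ logb 2 D / 32 := Nat.floor_le (by linarith)
    have h2 : ((2 ^ J : ℕ):ℝ) ≤ l := by exact_mod_cast hJ1
    push_cast at h2 ⊢
    linarith [show (0:ℝ) ≤ l by positivity]
  have hzl : log D ≤ 64 * log (z:ℝ) := by
    have h1 := Nat.lt_floor_add_one (logb 2 D / 32)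
    have h2 : ((l + 1 : ℕ):ℝ) ≤ ((2 ^ (J + 1) : ℕ):ℝ) := by exact_mod_cast hJ2
    push_cast [pow_succ] at h2
    rw [← hl] at h1
    have e : log D = logb 2 D * log 2 := by
      rw [logb, div_mul_cancel₀ _ (log_pos one_lt_two).ne']
    rw [e, hlogz]
    have h3 : logb 2 D ≤ 64 * (2:ℝ) ^ J := by linarith
    calc logb 2 D * log 2 ≤ 64 * (2:ℝ) ^ J * log 2 :=
          mul_le_mul_of_nonneg_right h3 (log_pos one_lt_two).le
      _ = _ := by ring
  have hlz : 0 < log (z:ℝ) := log_pos (by exact_mod_cast hz2)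
  have hPL' : ∀ n ∈ nset γ ψ q r, kk C0 B0 q r n ≠ 0 →
      1 ≤ K' * PL z (RR C0 B0 q r n) := by
    intro n hn hk
    have hR0 : 0 < RR C0 B0 q r n := Nat.mul_pos (Nat.mul_pos (Nat.mul_pos (xx_pos r iq.pos)
      (Nat.pos_of_mul_pos_left ((gcd_mul_yy q r).symm ▸ ir.pos))) hc.B_pos) (Int.natAbs_pos.mpr hk)
    have h1 := log_RR_le hc iq ir hle hn
    rw [max_eq_left hD1] at h1
    have hlR : 0 ≤ log (RR C0 B0 q r n : ℝ) := log_natCast_nonneg _
    set u := D ^ (1 / c)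
    have hu1 : D ≤ u := by
      conv_lhs => rw [← rpow_one D]
      exact rpow_le_rpow_of_exponent_le hD1 (by rw [le_div_iff₀ hc0]; linarith)
    have hu2 : (Λ:ℝ) ≤ u := by
      have h : (Λ:ℝ) ^ c ≤ D :=
        (le_mul_of_one_le_left (by positivity) (one_le_pow₀ one_le_two)).trans hbig
      have := rpow_le_rpow (by positivity) h (show 0 ≤ 1 / c by positivity)
      rwa [← rpow_mul (by positivity), mul_one_div, div_self hc0.ne', rpow_one] at this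
    have h2 : 2 + log (RR C0 B0 q r n : ℝ) ≤ 22 * u := by
      linarith [log_le_self hD.le]
    have h3 : log (2 + log (RR C0 B0 q r n : ℝ)) ≤ (2 + 1 / c) * log D := by
      refine (log_le_log (by linarith) h2).trans ?_
      rw [log_mul (by norm_num) (by positivity), log_rpow hD]
      have : log 22 ≤ 2 * log D := by
        have h22 : log 22 ≤ log D := log_le_log (by norm_num) (le_trans (by norm_num) hD64)
        linarith
      linarith
    have h4 := hPL z _ hz2 hR0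
    have hpl := PL_pos z (RR C0 B0 q r n)
    have h5 : log (z:ℝ) + log (2 + log (RR C0 B0 q r n : ℝ)) ≤
        (1 + 64 * (2 + 1 / c)) * log (z:ℝ) := by
      have := mul_le_mul_of_nonneg_left hzl (show 0 ≤ 2 + 1 / c by positivity)
      linarith
    have h6 : log (z:ℝ) ≤ log z * (K' * PL z (RR C0 B0 q r n)) := by
      refine h4.trans ((mul_le_mul_of_nonneg_right (mul_le_mul_of_nonneg_left h5 (by linarith))
        hpl.le).trans (le_of_eq ?_))
      simp only [K']; ring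
    exact le_of_mul_le_mul_left (by linarith) hlz
  have hN : ∀ n ∈ nset γ ψ q r, (Nn C B q r n : ℝ) ≤
      K' ^ 2 * (PL z q * PL z r) * (Nz z C B q r n : ℝ) := by
    intro n hn
    have h0 : 0 ≤ K' ^ 2 * (PL z q * PL z r) * (Nz z C B q r n : ℝ) := by
      have := PL_pos z q; have := PL_pos z r; positivity
    by_cases hk : kk C0 B0 q r n = 0
    · rw [Nn_eq_zero iq.pos ir.pos hne hc.cop iq.C_eq ir.C_eq iq.B_eq ir.B_eq hk, Nat.cast_zero]
      exact h0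
    · have h := Nn_split z iq.pos ir.pos hc.B_pos iq.C_eq ir.C_eq iq.B_eq ir.B_eq hk
      calc (Nn C B q r n : ℝ) ≤ (Nn C B q r n : ℝ) * (K' * PL z (RR C0 B0 q r n)) ^ 2 :=
            le_mul_of_one_le_right (Nat.cast_nonneg _) (one_le_pow₀ (hPL' n hn hk))
        _ = K' ^ 2 * ((Nn C B q r n : ℝ) * PL z (RR C0 B0 q r n) ^ 2) := by ring
        _ ≤ K' ^ 2 * ((Nz z C B q r n : ℝ) * (PL z q * PL z r)) :=
            mul_le_mul_of_nonneg_left h (sq_nonneg _)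
        _ = _ := by ring
  have hqR : (0:ℝ) < q := by exact_mod_cast iq.pos
  have hrR : (0:ℝ) < r := by exact_mod_cast ir.pos
  have hPPq := PL_pos z q
  have hPPr := PL_pos z r
  calc ov γ ψ C B q r
      ≤ 2 * ψ r / r * (K' ^ 2 * (PL z q * PL z r) *
          (K2 * Nat.gcd q r * D * (PP z q * PP z r))) := by
        refine mul_le_mul_of_nonneg_left ?_ (by positivity)
        refine (sum_le_sum hN).trans ?_
        rw [← mul_sum]
        exact mul_le_mul_of_nonneg_left (hNz γ ψ C B J q r iq.pos ir.pos hψq.le hzD) (by positivity)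
    _ = 2 * K' ^ 2 * K2 * D * ((Nat.gcd q r : ℝ) * (ψ r / r)) *
          ((PP z q * PL z q) * (PP z r * PL z r)) := by ring
    _ = _ := by
        rw [hg, PP_mul_PL z iq.pos, PP_mul_PL z ir.pos, lam, lam]
        field_simp

/-- the overlap for bounded `D` -/
theorem ov_small {c : ℝ} (hc0 : 0 < c) (hc1 : c ≤ 1) :
    ∃ K : ℝ, 0 ≤ K ∧ ∀ (γ : ℝ) (ψ : ℕ → ℝ) (C : ℕ → ℤ) (B : ℕ → ℕ) (Λ : ℕ) (C0 : ℤ) (B0 q r : ℕ),
      Cls γ Λ C0 B0 → InCls ψ C B Λ C0 B0 q → InCls ψ C B Λ C0 B0 r → q ≠ r →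
      ψ r / r ≤ ψ q / q → DD ψ q r < 2 ^ 64 * (Λ:ℝ) ^ c →
      ov γ ψ C B q r ≤ K * (Λ:ℝ) ^ (2 * c) * (lam ψ q * lam ψ r / DD ψ q r) := by
  classical
  obtain ⟨K1, hK1, hPL⟩ := PL_lower
  set K' := K1 * (1 + (8 + 2 / c) / log 2)
  refine ⟨2 * (5 * 2 ^ 64) * (4 * K' ^ 2), by positivity,
    fun γ ψ C B Λ C0 B0 q r hc iq ir hne hle hsmall => ?_⟩
  obtain ⟨hψq, hψr, hD, -, -, -, hg⟩ := pair_facts iq ir hle
  have hΛ : (1:ℝ) ≤ Λ := by exact_mod_cast hc.one_le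
  set D := DD ψ q r with hDdef
  set P := (Λ:ℝ) ^ (c / 2) with hP
  have hP1 : 1 ≤ P := Real.one_le_rpow hΛ (by positivity)
  have hlogΛ : log (Λ:ℝ) ≤ 2 / c * P := by
    refine (log_le_rpow_div (by positivity) (show 0 < c / 2 by positivity)).trans (le_of_eq ?_)
    rw [hP]; field_simp
  have hlog2 : 0 < log 2 := log_pos one_lt_two
  have hPL' : ∀ n ∈ nset γ ψ q r, kk C0 B0 q r n ≠ 0 →
      1 ≤ K' * P * PL 2 (RR C0 B0 q r n) := by
    intro n hn hk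
    have hR0 : 0 < RR C0 B0 q r n := Nat.mul_pos (Nat.mul_pos (Nat.mul_pos (xx_pos r iq.pos)
      (Nat.pos_of_mul_pos_left ((gcd_mul_yy q r).symm ▸ ir.pos))) hc.B_pos) (Int.natAbs_pos.mpr hk)
    have h1 := log_RR_le hc iq ir hle hn
    have hlR : 0 ≤ log (RR C0 B0 q r n : ℝ) := log_natCast_nonneg _
    have h2 : log (max D 1) ≤ 64 + log (Λ:ℝ) := by
      refine (log_le_log (by positivity) (max_le ?_ ?_ : max D 1 ≤ 2 ^ (64:ℕ) * (Λ:ℝ))).trans ?_
      · exact hsmall.le.trans (mul_le_mul_of_nonneg_left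
          ((rpow_le_rpow_of_exponent_le hΛ hc1).trans_eq (rpow_one _)) (by positivity))
      · exact one_le_mul_of_one_le_of_one_le (one_le_pow₀ one_le_two) hΛ
      · rw [log_mul (by positivity) (by positivity), log_pow]
        push_cast
        linarith [log_two_lt_d9]
    have h3 : 2 + log (RR C0 B0 q r n : ℝ) ≤ 256 * (Λ:ℝ) := by
      linarith [log_le_self (show (0:ℝ) ≤ Λ by positivity)]
    have h4 : log (2 + log (RR C0 B0 q r n : ℝ)) ≤ (8 + 2 / c) * P := by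
      refine (log_le_log (by linarith) h3).trans ?_
      rw [log_mul (by norm_num) (by positivity),
        show (256:ℝ) = 2 ^ (8:ℕ) by norm_num, log_pow]
      push_cast
      linarith [log_two_lt_d9]
    have h5 : log ((2:ℕ):ℝ) + log (2 + log (RR C0 B0 q r n : ℝ)) ≤
        log 2 * ((1 + (8 + 2 / c) / log 2) * P) := by
      rw [show log 2 * ((1 + (8 + 2 / c) / log 2) * P) = log 2 * P + (8 + 2 / c) * P by
        field_simp]
      push_cast
      linarith [le_mul_of_one_le_right hlog2.le hP1]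
    have h6 := hPL 2 _ le_rfl hR0
    have hpl := PL_pos 2 (RR C0 B0 q r n)
    have h7 : log 2 * 1 ≤ log 2 * (K' * P * PL 2 (RR C0 B0 q r n)) := by
      rw [mul_one]
      push_cast at h6
      refine h6.trans ((mul_le_mul_of_nonneg_right (mul_le_mul_of_nonneg_left
        (by exact_mod_cast h5) (by linarith)) hpl.le).trans (le_of_eq ?_))
      simp only [K']; ring
    exact le_of_mul_le_mul_left h7 hlog2
  have hqR : (0:ℝ) < q := by exact_mod_cast iq.pos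
  have hrR : (0:ℝ) < r := by exact_mod_cast ir.pos
  set φq := (q.totient : ℝ) / q
  set φr := (r.totient : ℝ) / r
  set M := (K' * P) ^ 2 * ((Nat.gcd q r : ℝ) * (4 * (φq * φr))) with hM
  have hM0 : 0 ≤ M := by positivity
  have hN : ∀ n ∈ nset γ ψ q r, (Nn C B q r n : ℝ) ≤ M := by
    intro n hn
    by_cases hk : kk C0 B0 q r n = 0
    · rw [Nn_eq_zero iq.pos ir.pos hne hc.cop iq.C_eq ir.C_eq iq.B_eq ir.B_eq hk, Nat.cast_zero]
      exact hM0
    · have h := Nn_split 2 iq.pos ir.pos hc.B_pos iq.C_eq ir.C_eq iq.B_eq ir.B_eq hk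
      have hPq := PL_pos 2 q
      have hPr := PL_pos 2 r
      have hz : (Nz 2 C B q r n : ℝ) * (PL 2 q * PL 2 r) ≤
          (Nat.gcd q r : ℝ) * (4 * (φq * φr)) := by
        refine mul_le_mul (by exact_mod_cast Nz_le 2 iq.pos n) ?_ (by positivity) (Nat.cast_nonneg _)
        calc PL 2 q * PL 2 r ≤ 2 * φq * (2 * φr) :=
              mul_le_mul (PL_le_two_mul iq.pos) (PL_le_two_mul ir.pos) hPr.le (by positivity)
          _ = _ := by ring
      calc (Nn C B q r n : ℝ) ≤ (Nn C B q r n : ℝ) * (K' * P * PL 2 (RR C0 B0 q r n)) ^ 2 :=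
            le_mul_of_one_le_right (Nat.cast_nonneg _) (one_le_pow₀ (hPL' n hn hk))
        _ = (K' * P) ^ 2 * ((Nn C B q r n : ℝ) * PL 2 (RR C0 B0 q r n) ^ 2) := by ring
        _ ≤ M := mul_le_mul_of_nonneg_left (h.trans hz) (sq_nonneg _)
  have hP2 : P ^ 2 = (Λ:ℝ) ^ c := by
    rw [hP, ← rpow_natCast, ← rpow_mul (by positivity)]; norm_num
  have hΛc : 1 ≤ (Λ:ℝ) ^ c := Real.one_le_rpow hΛ hc0.le
  have hcard : 4 * D + 1 ≤ 5 * 2 ^ 64 * (Λ:ℝ) ^ c := by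
    have := one_le_mul_of_one_le_of_one_le (one_le_pow₀ (n := 64) (one_le_two (α := ℝ))) hΛc
    linarith
  calc ov γ ψ C B q r ≤ 2 * ψ r / r * ((5 * 2 ^ 64 * (Λ:ℝ) ^ c) * M) := by
        refine mul_le_mul_of_nonneg_left ((sum_le_sum hN).trans ?_) (by positivity)
        rw [sum_const, nsmul_eq_mul]
        exact mul_le_mul_of_nonneg_right ((card_nset γ hD.le).trans hcard) hM0
    _ = 2 * (5 * 2 ^ 64) * (4 * K' ^ 2) * ((Λ:ℝ) ^ c * P ^ 2) *
          ((Nat.gcd q r : ℝ) * (ψ r / r) * (φq * φr)) := by rw [hM]; ring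
    _ = _ := by
        rw [hg, hP2, ← rpow_add (by positivity), show c + c = 2 * c by ring]
        simp only [lam, φq, φr]
        field_simp

/-- a pair that overlaps gives a reduced pair that can meet -/
theorem ov_meet {γ : ℝ} {ψ : ℕ → ℝ} {C : ℕ → ℤ} {B : ℕ → ℕ} {Λ : ℕ} {C0 : ℤ} {B0 q r : ℕ}
    (hc : Cls γ Λ C0 B0) (iq : InCls ψ C B Λ C0 B0 q) (ir : InCls ψ C B Λ C0 B0 r) (hne : q ≠ r)
    (hle : ψ r / r ≤ ψ q / q) (hov : ov γ ψ C B q r ≠ 0) {t : ℝ} (ht : t ≤ DD ψ q r)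
    (ht' : DD ψ q r < 2 * t) : Meet γ Λ C0 B0 t (xx q r, yy q r) := by
  obtain ⟨-, -, hD, hx, hy, hy', -⟩ := pair_facts iq ir hle
  have hw : (0:ℝ) ≤ (2:ℝ) ^ (2 * Λ) := by positivity
  obtain ⟨n, hn, hN⟩ : ∃ n ∈ nset γ ψ q r, (Nn C B q r n : ℝ) ≠ 0 := by
    by_contra h
    push Not at h
    exact hov (by rw [ov, sum_eq_zero h, mul_zero])
  have hk : kk C0 B0 q r n ≠ 0 := fun h => hN (by
    rw [Nn_eq_zero iq.pos ir.pos hne hc.cop iq.C_eq ir.C_eq iq.B_eq ir.B_eq h, Nat.cast_zero])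
  refine ⟨xx_pos r iq.pos, Nat.pos_of_mul_pos_left ((gcd_mul_yy q r).symm ▸ ir.pos),
    fun h => hne ?_, hx.trans (mul_le_mul_of_nonneg_right ht'.le hw),
    hy.trans (mul_le_mul_of_nonneg_right ht'.le hw),
    (mul_le_mul_of_nonneg_right ht (by positivity)).trans hy', n, ?_, hk⟩
  · simp only at h
    rw [← gcd_mul_xx q r, h, gcd_mul_yy q r]
  · have h2 := (mem_filter.mp hn).2
    simp only [mm] at h2
    linarith

end Vale.P028AS
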