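import Vale.Agent.P028.AS.Defs
import Vale.Agent.P028.EV.CaseA.Euler
import Vale.Agent.P028.EV.Weights

/-! # P028 all shifts: products over large primes -/

open Finset Real
open Vale.P028EV

namespace Vale.P028AS

theorem factor_bounds {p : ℕ} (hp : p.Prime) :
    0 < 1 - 1 / (p:ℝ) ∧ 1 - 1 / (p:ℝ) ≤ 1 ∧
      1 ≤ (1 - 1 / (p:ℝ)) * exp (1 / (p:ℝ) + 2 / (p:ℝ) ^ 2) := by
  have h := CA.inv_prime_le_half hp
  have h0 : (0:ℝ) ≤ 1 / (p:ℝ) := by positivity
  have h1 := add_one_le_exp (1 / (p:ℝ) + 2 / (p:ℝ) ^ 2)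
  have h2 : 2 / (p:ℝ) ^ 2 = 2 * (1 / (p:ℝ)) ^ 2 := by rw [div_pow]; ring
  refine ⟨by linarith, by linarith, ?_⟩
  rw [h2] at h1 ⊢
  nlinarith [sq_nonneg (1 / (p:ℝ))]

theorem PL_pos (z v : ℕ) : 0 < PL z v :=
  prod_pos fun _ hp => (factor_bounds (Nat.prime_of_mem_primeFactors (filter_subset _ _ hp))).1

theorem PL_le_one (z v : ℕ) : PL z v ≤ 1 :=
  prod_le_one
    (fun _ hp => (factor_bounds (Nat.prime_of_mem_primeFactors (filter_subset _ _ hp))).1.le)
    fun _ hp => (factor_bounds (Nat.prime_of_mem_primeFactors (filter_subset _ _ hp))).2.1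

theorem PP_mul_PL (z : ℕ) {v : ℕ} (hv : 0 < v) : PP z v * PL z v = (v.totient : ℝ) / v :=
  (CA.totient_div_eq z hv).symm

theorem PL_le_two_mul {v : ℕ} (hv : 0 < v) : PL 2 v ≤ 2 * ((v.totient : ℝ) / v) := by
  rw [← PP_mul_PL 2 hv]
  have h := CA.PP_ge 2 v (by norm_num)
  push_cast at h
  nlinarith [PL_pos 2 v]

/-- Primes above `z` of a number `R` cost at most `log (log R) / log z`. -/
theorem PL_lower : ∃ K : ℝ, 1 ≤ K ∧ ∀ z R : ℕ, 2 ≤ z → 0 < R →
    log z ≤ K * (log z + log (2 + log R)) * PL z R := by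
  obtain ⟨C, hC, hm⟩ := Vale.Agent.P031.recipSum_sub_loglog
  have hT : Summable fun n : ℕ => 2 / ((n:ℝ) ^ 2) := by
    have := (Real.summable_nat_pow_inv.mpr (show 1 < 2 by norm_num)).mul_left 2
    simpa [div_eq_mul_inv] using this
  set T : ℝ := ∑' n : ℕ, 2 / ((n:ℝ) ^ 2)
  have hT0 : 0 ≤ T := tsum_nonneg fun n => by positivity
  have hl2 : 0 < log 2 := log_pos one_lt_two
  set D : ℝ := C / log 2 + 1 / log 2 + T
  refine ⟨exp D, one_le_exp (by positivity), fun z R hz hR => ?_⟩
  set l := log (R:ℝ) with hl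
  have hl0 : 0 ≤ l := log_natCast_nonneg R
  set P := max z ⌈l⌉₊ with hP
  have hzP : z ≤ P := le_max_left _ _
  have hzR : (2:ℝ) ≤ z := by exact_mod_cast hz
  have hPR : (z:ℝ) ≤ P := by exact_mod_cast hzP
  have hlP : l ≤ P := (Nat.le_ceil l).trans (by exact_mod_cast le_max_right z _)
  have hlz : 0 < log z := log_pos (by linarith)
  have hlogP : 0 < log P := log_pos (by linarith)
  set U := R.primeFactors.filter (fun p => z < p) with hU
  have hsum : ∑ p ∈ U, (1 / (p:ℝ) + 2 / (p:ℝ) ^ 2) ≤ log (log P / log z) + D := by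
    rw [sum_add_distrib, ← sum_filter_add_sum_filter_not U (fun p => p ≤ P)]
    have h1 : ∑ p ∈ U.filter (fun p => p ≤ P), 1 / (p:ℝ) ≤
        log (log P / log z) + C / log 2 := by
      have h := (abs_le.mp (hm z P hz hzP)).2
      have hCz : C / log z ≤ C / log 2 :=
        div_le_div_of_nonneg_left hC.le hl2 (log_le_log two_pos hzR)
      rw [log_div hlogP.ne' hlz.ne']
      have hsub : Nat.primesLE z ⊆ Nat.primesLE P := fun p hp => by
        rw [Nat.mem_primesLE] at hp ⊢; exact ⟨hp.1.trans hzP, hp.2⟩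
      have h2 : ∑ p ∈ U.filter (fun p => p ≤ P), 1 / (p:ℝ) ≤
          Vale.Agent.P031.recipSum P - Vale.Agent.P031.recipSum z := by
        simp only [Vale.Agent.P031.recipSum]
        rw [← sum_sdiff hsub, add_sub_cancel_right]
        refine sum_le_sum_of_subset_of_nonneg (fun p hp => ?_) fun p _ _ => by positivity
        simp only [hU, mem_filter] at hp
        rw [mem_sdiff, Nat.mem_primesLE, Nat.mem_primesLE]
        exact ⟨⟨hp.2, Nat.prime_of_mem_primeFactors hp.1.1⟩, fun h => by omega⟩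
      linarith
    have h2 : ∑ p ∈ U.filter (fun p => ¬ p ≤ P), 1 / (p:ℝ) ≤ 1 / log 2 := by
      calc ∑ p ∈ U.filter (fun p => ¬ p ≤ P), 1 / (p:ℝ)
          ≤ ∑ p ∈ U.filter (fun p => ¬ p ≤ P), log p / ((P:ℝ) * log 2) := by
            refine sum_le_sum fun p hp => ?_
            rw [mem_filter, not_le] at hp
            have hp' : (P:ℝ) ≤ p := by exact_mod_cast hp.2.le
            rw [div_le_div_iff₀ (by linarith) (by nlinarith)]
            have := log_le_log two_pos (show (2:ℝ) ≤ p by linarith)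
            nlinarith
        _ ≤ l / ((P:ℝ) * log 2) := by
            rw [← sum_div]
            refine div_le_div_of_nonneg_right (sum_log_primeFactors_le hR ?_) (by nlinarith)
            exact (filter_subset _ _).trans (filter_subset _ _)
        _ ≤ _ := by
            rw [div_le_div_iff₀ (by nlinarith) hl2]
            nlinarith
    have h3 : ∑ p ∈ U, 2 / (p:ℝ) ^ 2 ≤ T := hT.sum_le_tsum _ fun p _ => by positivity
    simp only [D]
    linarith
  have hprod : 1 ≤ PL z R * exp (∑ p ∈ U, (1 / (p:ℝ) + 2 / (p:ℝ) ^ 2)) := by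
    rw [exp_sum, PL, ← prod_mul_distrib]
    exact one_le_prod fun p hp =>
      (factor_bounds (Nat.prime_of_mem_primeFactors (filter_subset _ _ hp))).2.2
  have h4 : 1 ≤ PL z R * (log P / log z * exp D) := by
    refine hprod.trans (mul_le_mul_of_nonneg_left ?_ (PL_pos z R).le)
    rw [← exp_log (div_pos hlogP hlz), ← exp_add]
    exact exp_le_exp.mpr hsum
  have h5 : log P ≤ log z + log (2 + l) := by
    rw [← log_mul (by linarith) (by linarith)]
    refine log_le_log (by linarith) ?_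
    rw [hP, Nat.cast_max]
    refine max_le (le_mul_of_one_le_right (by linarith) (by linarith)) ?_
    have := Nat.ceil_lt_add_one hl0
    nlinarith
  calc log z ≤ log z * (PL z R * (log P / log z * exp D)) :=
        le_mul_of_one_le_right hlz.le h4
    _ = exp D * log P * PL z R := by field_simp
    _ ≤ _ := by
        have := PL_pos z R
        gcongr

end Vale.P028AS
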